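import Vale.Agent.P217.LT.Universal
import Vale.Agent.P217.LT.Heights
import Vale.Agent.P217.Point.Exists
import Vale.Agent.P217.Core.CharZero.Span

/-!
# P217 module H: `h = 0`

At a point of characteristic zero with kernel `P`, the periods `Λ` and their derivatives form an
invertible matrix; the test automorphisms move the point to first order in every direction
`ω_r * Λ_{r+i}`, which therefore all lie in the tangent hyperplane of `P`.
-/

noncomputable section

namespace Vale.Agent.P217

open Filter Topology H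

variable {p n : ℕ} [Fact p.Prime] {F : FormalGroup (E0 p n)}

namespace H

/-- At a point with kernel `I` every derivative of every element of `I` vanishes. -/
theorem pderiv_mem (hF : IsHazewinkel p n F) [F.IsComm] (hn : 1 ≤ n) (S : Setup p n)
    {I : Ideal (E0 p n)} (hI : ∀ a, a ∈ I ↔ S.P.x a = 0) (hinv : IsNearInvariant p n F I)
    {f₀ : E0 p n} (hf₀ : f₀ ∈ I) (i₀ : Fin (n - 1)) :
    S.P.x (MvPowerSeries.pderiv (W p n) i₀ f₀) = 0 := by
  have := S.charZero
  obtain ⟨T⟩ := S.exists_frame hF hn
  exact T.psi_single_eq f₀ i₀ (T.psi_zero f₀ fun r i hi =>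
    S.char_sep hn i (fun r => T.ψ f₀ (Pi.single r 1) * T.Λ ((r : ℕ) + i))
      (fun a => T.psi_sum f₀ a i (T.ψ_dir hF hn hI hinv hf₀ a hi)) r)

end H

theorem charZeroCore (hF : IsHazewinkel p n F) [F.IsComm] (hn : 1 ≤ n) :
    CharZeroCore p n F := by
  intro I j hprime hinv hj hjn hp hrad
  have := hprime
  by_contra hne
  obtain ⟨P, hker⟩ := exists_point_zero hj hjn hp hrad
  obtain ⟨f₀, hf₀, i₀, hi₀⟩ := H.exists_pderiv_not_mem P hker hp hne
  have hI : ∀ a, a ∈ I ↔ P.x a = 0 := fun a => by rw [← hker, RingHom.mem_ker]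
  obtain ⟨S, rfl⟩ := H.exists_setup P fun h => hp ((hI _).2 h)
  exact hi₀ ((hI _).2 (H.pderiv_mem hF hn S hI hinv hf₀ i₀))

end Vale.Agent.P217
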