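import Vale.Agent.P217.Base

/-!
# P217: the data handed from the displacement module to the final contradiction

`T i` are the row coordinates, `w i ε` their weights at two test exponents `ε`, `[lo, hi]` the
exponent intervals of the residual additive polynomials, `ξ` its coefficients.
-/

noncomputable section

namespace Vale.Agent.P217

variable (p n : ℕ) [Fact p.Prime]

/-- The character `a ↦ a ^ (p ^ κ)` of `F_{p^n}`, with `κ` modulo `n`. -/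
def chi (κ : ℤ) (a : Coef p n) : Coef p n := a ^ p ^ (κ % (n : ℤ)).toNat

/-- Input of the final contradiction. -/
structure EngineData where
  /-- the field -/
  K : Type
  [normed : NormedField K]
  [ultra : IsUltrametricDist K]
  [charP : CharP K p]
  /-- the coefficient field -/
  ι : Coef p n →+* K
  /-- the dimension -/
  c : ℕ
  /-- the image of the Lubin-Tate ring -/
  A : Subring K
  A_norm : ∀ y ∈ A, ‖y‖ ≤ 1
  pdeg : ∃ b : Fin (p ^ c) → K, (∀ i, b i ∈ Subfield.closure (A : Set K)) ∧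
    ∀ y ∈ Subfield.closure (A : Set K), ∃ z : Fin (p ^ c) → K,
      (∀ i, z i ∈ Subfield.closure (A : Set K)) ∧ y = ∑ i, z i ^ p * b i
  /-- the rows -/
  T : Fin (c + 1) → K
  T_norm : ∀ i, ‖T i‖ ≤ 1
  T_integral : ∀ i, IsIntegral A (T i)
  /-- the weights -/
  w : Fin (c + 1) → Fin 2 → ℝ
  w_pos : ∀ i ε, 0 < w i ε
  /-- the weight of the coefficient displacement -/
  γ : Fin 2 → ℝ
  γ_pos : ∀ ε, 0 < γ ε
  /-- left end of the exponent interval -/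
  lo : Fin (c + 1) → Fin 2 → ℤ
  /-- right end of the exponent interval -/
  hi : Fin (c + 1) → Fin 2 → ℤ
  lo_le_hi : ∀ i ε, lo i ε ≤ hi i ε
  hi_lt : ∀ i ε, hi i ε < lo i ε + n
  /-- first member of the pair -/
  a₀ : Fin (c + 1)
  /-- second member of the pair; equal to the first if there is no pair -/
  b₀ : Fin (c + 1)
  disjoint : ∀ i j, i ≠ j → ¬(i = a₀ ∧ j = b₀) → ¬(i = b₀ ∧ j = a₀) → ∀ ε (t t' : ℕ),
    (p : ℝ) ^ t * w i ε = (p : ℝ) ^ t' * w j ε →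
    ∀ κ κ' : ℤ, lo i ε ≤ κ → κ ≤ hi i ε → lo j ε ≤ κ' → κ' ≤ hi j ε →
      ¬ (n : ℤ) ∣ (κ + t) - (κ' + t')
  /-- the scale of the `m`-th automorphism -/
  scale : ℕ → ℝ
  scale_tendsto : Filter.Tendsto scale Filter.atTop Filter.atTop
  /-- the common shift of the exponents -/
  sh : Fin 2 → ℕ → ℤ
  /-- the size of the main terms -/
  B : Fin (c + 1) → Fin 2 → ℕ → ℝ
  /-- the coefficients of the residual polynomials -/
  ξ : Fin (c + 1) → Fin 2 → ℕ → ℤ → K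
  B_pos : ∀ i ε m, 0 < B i ε m
  B_asymp : ∀ i ε, ∃ C : ℝ, ∀ᶠ m in Filter.atTop, |Real.log (B i ε m) + scale m * w i ε| ≤ C
  ξ_le : ∀ i ε, ∀ᶠ m in Filter.atTop, ∀ κ, lo i ε ≤ κ → κ ≤ hi i ε → ‖ξ i ε m κ‖ ≤ B i ε m
  ξ_ends : ∀ i ε, ∀ᶠ m in Filter.atTop,
    ‖ξ i ε m (lo i ε)‖ = B i ε m ∧ ‖ξ i ε m (hi i ε)‖ = B i ε m
  move : ∀ ε, ∃ C : ℝ, ∀ᶠ m in Filter.atTop, ∀ a : Coef p n,
    ∃ τ : Subring.closure ((A : Set K) ∪ Set.range T) →+* K,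
      (∀ i, ‖τ ⟨T i, Subring.subset_closure (Or.inr ⟨i, rfl⟩)⟩ - T i -
          ∑ κ ∈ Finset.Icc (lo i ε) (hi i ε), ξ i ε m κ * ι (chi p n (κ + sh ε m) a)‖
            < B i ε m) ∧
      ∀ y (hy : y ∈ A), ‖τ ⟨y, Subring.subset_closure (Or.inl hy)⟩ - y‖ ≤
        Real.exp (C - scale m * γ ε)
  pair_B : a₀ ≠ b₀ → ∀ ε m, B a₀ ε m = B b₀ ε m
  pair_w : a₀ ≠ b₀ → ∀ ε, w a₀ ε = w b₀ ε
  pair_residue : a₀ ≠ b₀ → ∃ μ : K, ‖μ‖ = 1 ∧ (∀ j : ℕ, ‖μ - (j : K)‖ = 1) ∧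
    ∃ κ : Fin 2 → ℤ,
      (∀ ε, (κ ε = lo a₀ ε ∨ κ ε = hi a₀ ε) ∧ lo b₀ ε ≤ κ ε ∧ κ ε ≤ hi b₀ ε) ∧
      ∀ᶠ m in Filter.atTop, ∃ q : ℕ,
        ‖ξ b₀ 0 m (κ 0) - μ ^ p ^ q * ξ a₀ 0 m (κ 0)‖ < B a₀ 0 m ∧
        ‖ξ b₀ 1 m (κ 1) - μ ^ p ^ (q + 1) * ξ a₀ 1 m (κ 1)‖ < B a₀ 1 m

attribute [instance] EngineData.normed EngineData.ultra EngineData.charP

end Vale.Agent.P217
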