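import Vale.Agent.P217.Complete
import Vale.Agent.P217.LT.Heights
import Vale.Agent.P217.FG.Existence
import Vale.Agent.P217.Point.Basic
import Vale.Agent.P217.Tors.Residual
import Vale.Agent.P217.Core.PointTower.Series

/-!
# P217: the torsion tower of a point, and the size of the motion of a point
-/

noncomputable section

namespace Vale.Agent.P217

open Tors TowerSeries

variable {p n : ℕ} [Fact p.Prime]

namespace Point

variable (P : Point p n)

/-- The group law of a point on the open unit disc. -/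
def law (F : FormalGroup (E0 p n)) [F.IsComm] : DiscLaw P.K where
  add := P.add F
  neg y := if hy : ‖y‖ < 1 then Classical.choose (P.exists_neg F hy) else 0
  add_close _ _ := P.norm_add_sub_le F
  neg_mem y hy := by
    rw [dif_pos hy, (Classical.choose_spec (P.exists_neg F hy)).1]; exact hy
  assoc _ _ _ := P.add_assoc F
  comm _ _ := P.add_comm F
  zero_add y hy := by
    rw [P.add_comm F (by simp) hy]; exact P.add_zero F hy
  neg_add y hy := by
    rw [dif_pos hy, P.add_comm F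
      (by rw [(Classical.choose_spec (P.exists_neg F hy)).1]; exact hy) hy]
    exact (Classical.choose_spec (P.exists_neg F hy)).2

variable {F : FormalGroup (E0 p n)} [F.IsComm]

/-- The conditions for a point to lie on the stratum of height exactly `h`. -/
structure OnStratum (h : ℕ) : Prop where
  one_le : 1 ≤ h
  lt : h < n
  x_p : P.x (p : E0 p n) = 0
  x_low : ∀ l, 1 ≤ l → l < h → P.x (u p n l) = 0
  x_ne : P.x (u p n h) ≠ 0

theorem val_nsmul (y : (P.law F).Pt) (m : ℕ) :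
    (m • y).val = P.ev₁ (nsmulSeries F m) y.val := by
  induction m with
  | zero =>
    rw [zero_smul, DiscLaw.val_zero, nsmulSeries, ev₁, show (0 : PowerSeries (E0 p n)) =
      MvPowerSeries.C (0 : E0 p n) from (map_zero _).symm, ev_C, map_zero]
  | succ m ih =>
    rw [succ_nsmul', DiscLaw.val_add, ih, P.ev₁_nsmulSeries_succ F m y.norm_lt]
    rfl

theorem ev_congr {s : Type} [Fintype s] {f g : MvPowerSeries s (E0 p n)} (y : s → P.K)
    (h : MvPowerSeries.map P.x f = MvPowerSeries.map P.x g) : P.ev f y = P.ev g y := by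
  refine tsum_congr fun d => ?_
  have := congrArg (MvPowerSeries.coeff d) h
  simp only [MvPowerSeries.coeff_map] at this
  rw [this]

theorem ev₁_mul (f g : PowerSeries (E0 p n)) {y : P.K} (hy : ‖y‖ < 1) :
    P.ev₁ (f * g) y = P.ev₁ f y * P.ev₁ g y := P.ev_mul f g fun _ => hy

theorem ev₁_C (a : E0 p n) (y : P.K) : P.ev₁ (PowerSeries.C a) y = P.x a := P.ev_C a

theorem ev₁_X_pow (k : ℕ) {y : P.K} (hy : ‖y‖ < 1) : P.ev₁ (PowerSeries.X ^ k) y = y ^ k := by
  have h : P.evHom (s := Unit) (y := fun _ => y) (fun _ => hy) PowerSeries.X = y :=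
    P.ev_X (y := fun _ : Unit => y) ()
  have h2 := map_pow (P.evHom (s := Unit) (y := fun _ => y) fun _ => hy) PowerSeries.X k
  rw [h] at h2
  exact h2

theorem ev₁_coe (g : Polynomial (E0 p n)) {y : P.K} (hy : ‖y‖ < 1) :
    P.ev₁ (g : PowerSeries (E0 p n)) y = (g.map P.x).eval y := by
  induction g using Polynomial.induction_on' with
  | add a b ha hb =>
    rw [Polynomial.coe_add, Polynomial.map_add, Polynomial.eval_add, ← ha, ← hb]
    exact P.ev_add _ _ fun _ => hy
  | monomial k a =>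
    rw [Polynomial.map_monomial, Polynomial.eval_monomial, ← Polynomial.C_mul_X_pow_eq_monomial,
      Polynomial.coe_mul, Polynomial.coe_C, Polynomial.coe_pow, Polynomial.coe_X,
      P.ev₁_mul _ _ hy, ev₁_C, P.ev₁_X_pow k hy]

theorem norm_x_unit {v : E0 p n} (hv : IsUnit v) : ‖P.x v‖ = 1 := by
  obtain ⟨w, hw⟩ := hv.exists_right_inv
  have h : ‖P.x v‖ * ‖P.x w‖ = 1 := by rw [← norm_mul, ← map_mul, hw, map_one, norm_one]
  nlinarith [P.norm_le v, P.norm_le w, norm_nonneg (P.x v), norm_nonneg (P.x w)]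

theorem norm_x_lt {a : E0 p n} (ha : a ∈ IsLocalRing.maximalIdeal (E0 p n)) : ‖P.x a‖ < 1 := by
  obtain ⟨r, hr, h⟩ := P.contract
  exact (h a ha).trans_lt hr

theorem u_mem_maximalIdeal {i : ℕ} (h1 : 1 ≤ i) (h2 : i < n) :
    u p n i ∈ IsLocalRing.maximalIdeal (E0 p n) := by
  rw [← residueMap_eq_zero_iff, u, dif_pos ⟨h1, h2⟩]
  simp [residueMap]

theorem norm_add_eq_left (a b : (P.law F).Pt) (h : ‖b.val‖ < ‖a.val‖) :
    ‖(a + b).val‖ = ‖a.val‖ := by
  refine le_antisymm (((P.law F).norm_val_add_le a b).trans (max_le le_rfl h.le)) ?_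
  have h2 := (P.law F).norm_val_sub_le (a + b) b
  rw [add_sub_cancel_right] at h2
  rcases le_max_iff.1 h2 with h3 | h3
  · exact h3
  · exact absurd h3 (not_le.2 h)

/-- The term `x (u (l + 1)) * y ^ (p ^ (l + 1))` of `p • y`. -/
def tailTerm (y : (P.law F).Pt) (l : ℕ) : (P.law F).Pt :=
  ⟨P.x (u p n (l + 1)) * y.val ^ p ^ (l + 1), by
    rw [norm_mul, norm_pow]
    exact lt_of_le_of_lt (mul_le_of_le_one_left (pow_nonneg (norm_nonneg _) _) (P.norm_le _))
      (pow_lt_one₀ (norm_nonneg _) y.norm_lt (pow_ne_zero _ (Fact.out : p.Prime).ne_zero))⟩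

theorem ev₁_tail (y : (P.law F).Pt) (j : ℕ) :
    P.ev₁ (FG.tail p F (u p n) j) y.val = (∑ l ∈ Finset.range j, P.tailTerm y l).val := by
  induction j with
  | zero =>
    rw [Finset.sum_range_zero, DiscLaw.val_zero, FG.tail, ev₁, show (0 : PowerSeries (E0 p n)) =
      MvPowerSeries.C (0 : E0 p n) from (map_zero _).symm, ev_C, map_zero]
  | succ j ih =>
    have h0 : MvPowerSeries.constantCoeff
        (PowerSeries.C (u p n (j + 1)) * PowerSeries.X ^ p ^ (j + 1) : PowerSeries (E0 p n)) = 0 := by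
      change PowerSeries.constantCoeff _ = 0
      simp [zero_pow (pow_ne_zero (j + 1) (Fact.out : p.Prime).ne_zero)]
    rw [Finset.sum_range_succ, _root_.add_comm (Finset.sum _ _), DiscLaw.val_add, ← ih]
    change P.ev₁ (F.toPowerSeries.subst ![_, _]) _ = P.add F _ _
    rw [ev₁, P.ev_subst_pair F (s := Unit) h0
      (FG.Haz.constantCoeff_tail F (u p n) j) fun _ => y.norm_lt]
    congr 1
    change P.ev₁ _ y.val = _
    rw [P.ev₁_mul _ _ y.norm_lt, ev₁_C, P.ev₁_X_pow _ y.norm_lt]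
    rfl

/-- The size of `p • y` when one parameter dominates. -/
theorem norm_nsmul_of_max (hF : IsHazewinkel p n F) {h : ℕ} (hP : P.OnStratum h)
    (y : (P.law F).Pt) {i : ℕ} (hi : h ≤ i) (hin : i ≤ n)
    (hmax : ∀ l, h ≤ l → l ≤ n → l ≠ i →
      ‖P.x (u p n l)‖ * ‖y.val‖ ^ p ^ l < ‖P.x (u p n i)‖ * ‖y.val‖ ^ p ^ i) :
    ‖(p • y).val‖ = ‖P.x (u p n i)‖ * ‖y.val‖ ^ p ^ i := by
  classical
  have h1 := hP.one_le
  have hlt := hP.lt
  have hnorm : ∀ l, ‖(P.tailTerm y l).val‖ =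
      ‖P.x (u p n (l + 1))‖ * ‖y.val‖ ^ p ^ (l + 1) := fun l => by
    change ‖P.x (u p n (l + 1)) * y.val ^ p ^ (l + 1)‖ = _
    rw [norm_mul, norm_pow]
  have hpos : 0 < ‖P.x (u p n i)‖ * ‖y.val‖ ^ p ^ i := by
    by_cases hin' : i = h
    · exact lt_of_le_of_lt (by positivity) (hmax n hlt.le le_rfl (by omega))
    · exact lt_of_le_of_lt (by positivity) (hmax h le_rfl hlt.le (Ne.symm hin'))
  rw [P.val_nsmul, show P.ev₁ (nsmulSeries F p) y.val = P.ev₁ (FG.tail p F (u p n) n) y.val from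
    P.ev_congr _ (FG.map_nsmul_p p n hF P.x hP.x_p), ev₁_tail,
    ← Finset.add_sum_erase _ _ (Finset.mem_range.2 (show i - 1 < n by omega))]
  have hrest : ‖(∑ l ∈ (Finset.range n).erase (i - 1), P.tailTerm y l).val‖ <
      ‖P.x (u p n i)‖ * ‖y.val‖ ^ p ^ i := by
    refine Finset.sum_induction _ (fun z => ‖z.val‖ < ‖P.x (u p n i)‖ * ‖y.val‖ ^ p ^ i)
      (fun a b ha hb => ((P.law F).norm_val_add_le a b).trans_lt (max_lt ha hb))
      (by simpa using hpos) fun l hl => ?_
    rw [Finset.mem_erase, Finset.mem_range] at hl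
    rw [hnorm]
    by_cases hlh : l + 1 < h
    · rw [hP.x_low _ (by omega) hlh, norm_zero, zero_mul]
      exact hpos
    · exact hmax _ (by omega) (by omega) (by omega)
  have hi' : ‖(P.tailTerm y (i - 1)).val‖ = ‖P.x (u p n i)‖ * ‖y.val‖ ^ p ^ i := by
    rw [hnorm, Nat.sub_add_cancel (by omega)]
  rw [P.norm_add_eq_left _ _ (by rw [hi']; exact hrest), hi']

/-- Near zero, multiplication by `p ^ N` multiplies the sizes by a constant power. -/
theorem exists_asymp (hF : IsHazewinkel p n F) {h : ℕ} (hP : P.OnStratum h) (N : ℕ) :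
    ∃ c δ : ℝ, 0 < c ∧ 0 < δ ∧ ∀ y : (P.law F).Pt, y.val ≠ 0 → ‖y.val‖ < δ →
      ‖(p ^ N • y).val‖ = c * ‖y.val‖ ^ p ^ (h * N) := by
  have hu0 : 0 < ‖P.x (u p n h)‖ := norm_pos_iff.2 hP.x_ne
  induction N with
  | zero => exact ⟨1, 1, one_pos, one_pos, fun y _ _ => by simp⟩
  | succ N ih =>
    obtain ⟨c, δ, hc, hδ, hy⟩ := ih
    refine ⟨c * ‖P.x (u p n h)‖ ^ p ^ (h * N), min δ ‖P.x (u p n h)‖,
      mul_pos hc (pow_pos hu0 _), lt_min hδ hu0, fun y hy0 hyd => ?_⟩
    rw [lt_min_iff] at hyd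
    have hy' : 0 < ‖y.val‖ := norm_pos_iff.2 hy0
    have hp1 : 1 < p := (Fact.out : p.Prime).one_lt
    have hpy := P.norm_nsmul_of_max hF hP y le_rfl hP.lt.le fun l hl _ hne => by
      have hlh : p ^ h + 1 ≤ p ^ l := Nat.pow_lt_pow_right hp1 (lt_of_le_of_ne hl hne.symm)
      calc ‖P.x (u p n l)‖ * ‖y.val‖ ^ p ^ l ≤ 1 * ‖y.val‖ ^ (p ^ h + 1) :=
            mul_le_mul (P.norm_le _) (pow_le_pow_of_le_one hy'.le y.norm_lt.le hlh)
              (by positivity) one_pos.le
        _ = ‖y.val‖ * ‖y.val‖ ^ p ^ h := by rw [one_mul, pow_succ']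
        _ < ‖P.x (u p n h)‖ * ‖y.val‖ ^ p ^ h := mul_lt_mul_of_pos_right hyd.2 (by positivity)
    have hpy0 : (p • y).val ≠ 0 := norm_pos_iff.1 (hpy ▸ by positivity)
    have hsmall : ‖(p • y).val‖ < δ := ((P.law F).norm_val_nsmul_le y p).trans_lt hyd.1
    rw [pow_succ, mul_smul, hy _ hpy0 hsmall, hpy, mul_pow, ← pow_mul, ← pow_add,
      show h + h * N = h * (N + 1) by ring]
    ring

theorem unit_close_of_coeff {U : PowerSeries (E0 p n)}
    (hU : ∀ i, PowerSeries.coeff i (U - 1) ∈ IsLocalRing.maximalIdeal (E0 p n)) {y : P.K}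
    (hy : ‖y‖ < 1) : ‖P.ev₁ U y - 1‖ < 1 := by
  obtain ⟨r, -, hr, hr'⟩ := P.exists_norm_le_pow
  have h : P.ev₁ (U - 1) y = P.ev₁ U y - 1 := by
    rw [ev₁, ev₁, P.ev_sub _ _ fun _ => hy]
    congr 1
    exact (P.evHom (s := Unit) (y := fun _ => y) fun _ => hy).map_one
  rw [← h]
  refine lt_of_le_of_lt (P.norm_ev_le_of_coeff _ (fun d => ?_) fun _ => hy) hr
  have := hU (d ())
  rw [PowerSeries.coeff, ← Finsupp.unique_single d] at this
  exact (hr' 1 _ (by rwa [pow_one])).trans_eq (pow_one r)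

/-- The distinguished polynomial of `[p ^ N]` at a point: its roots are the `p ^ N`-torsion, each
of multiplicity `p ^ (h * N)`. -/
theorem exists_roots (hF : IsHazewinkel p n F) {h : ℕ} (hP : P.OnStratum h) {N : ℕ}
    {g : Polynomial (E0 p n)} {U : PowerSeries (E0 p n)} (hg : g.Monic)
    (hdeg : g.natDegree = p ^ (n * N))
    (hlow : ∀ i < p ^ (n * N), g.coeff i ∈ IsLocalRing.maximalIdeal (E0 p n))
    (hU : ∀ i, PowerSeries.coeff i (U - 1) ∈ IsLocalRing.maximalIdeal (E0 p n))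
    (hfac : nsmulSeries F (p ^ N) = (g : PowerSeries (E0 p n)) * U) :
    ∃ R : Finset (P.law F).Pt, (∀ y, y ∈ R ↔ p ^ N • y = 0) ∧ R.card = p ^ ((n - h) * N) ∧
      g.map P.x = ∏ r ∈ R, (Polynomial.X - Polynomial.C r.val) ^ p ^ (h * N) := by
  classical
  set G := g.map P.x with hG
  have hGm : G.Monic := hg.map _
  have hsplit : G = (G.roots.map fun a => Polynomial.X - Polynomial.C a).prod :=
    (IsAlgClosed.splits G).eq_prod_roots_of_monic hGm
  have hDpos : p ^ (n * N) ≠ 0 := pow_ne_zero _ (Fact.out : p.Prime).ne_zero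
  obtain ⟨ρ, hρ0, hρ1, hρ⟩ := P.exists_norm_le_pow
  have hroot : ∀ a ∈ G.roots, ‖a‖ < 1 := by
    intro a ha
    by_contra hcon
    rw [not_lt] at hcon
    have hev : G.eval a = 0 := (Polynomial.mem_roots hGm.ne_zero).1 ha
    rw [Polynomial.eval_eq_sum_range, hG, hg.natDegree_map, hdeg, Finset.sum_range_succ,
      Polynomial.coeff_map P.x (p ^ (n * N)), show g.coeff (p ^ (n * N)) = 1 from hdeg ▸ hg,
      map_one, one_mul, add_eq_zero_iff_eq_neg'] at hev
    have hb : ‖∑ i ∈ Finset.range (p ^ (n * N)), (g.map P.x).coeff i * a ^ i‖ ≤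
        ρ * ‖a‖ ^ p ^ (n * N) := by
      refine IsUltrametricDist.norm_sum_le_of_forall_le_of_nonneg (by positivity) fun i hi => ?_
      rw [Polynomial.coeff_map, norm_mul, norm_pow]
      refine mul_le_mul ?_ (pow_le_pow_right₀ hcon (Finset.mem_range.1 hi).le) (by positivity) hρ0.le
      simpa using hρ 1 _ (by rw [pow_one]; exact hlow i (Finset.mem_range.1 hi))
    have hpos : (0 : ℝ) < ‖a‖ ^ p ^ (n * N) := pow_pos (lt_of_lt_of_le one_pos hcon) _
    have := congrArg norm hev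
    rw [norm_neg, norm_pow] at this
    nlinarith
  set R : Finset (P.law F).Pt :=
    G.roots.toFinset.attach.image fun a => ⟨a.1, hroot a.1 (Multiset.mem_toFinset.1 a.2)⟩
  have hmemR : ∀ y : (P.law F).Pt, y ∈ R ↔ y.val ∈ G.roots := by
    intro y
    refine Finset.mem_image.trans ⟨?_, fun hy => ⟨⟨y.val, Multiset.mem_toFinset.2 hy⟩,
      Finset.mem_attach _ _, rfl⟩⟩
    rintro ⟨a, -, rfl⟩
    exact Multiset.mem_toFinset.1 a.2
  have hprod : G = ∏ r ∈ R, (Polynomial.X - Polynomial.C r.val) ^ G.roots.count r.val := by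
    conv_lhs => rw [hsplit, Finset.prod_multiset_map_count]
    refine (Finset.prod_bij (fun (r : (P.law F).Pt) _ => r.val)
      (fun r hr => Multiset.mem_toFinset.2 ((hmemR r).1 hr))
      (fun r _ z _ e => DiscLaw.Pt.ext e)
      (fun m hm => ⟨⟨m, hroot m (Multiset.mem_toFinset.1 hm)⟩,
        (hmemR _).2 (Multiset.mem_toFinset.1 hm), rfl⟩) fun r _ => rfl).symm
  have hev : ∀ a, ‖G.eval a‖ = ∏ r ∈ R, ‖a - r.val‖ ^ G.roots.count r.val := fun a => by
    conv_lhs => rw [hprod]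
    simp [Polynomial.eval_prod, norm_prod, norm_pow]
  have hval : ∀ y : (P.law F).Pt, (p ^ N • y).val = G.eval y.val * P.ev₁ U y.val := fun y => by
    rw [P.val_nsmul, hfac, P.ev₁_mul _ _ y.norm_lt, P.ev₁_coe g y.norm_lt]
  have hUnit : ∀ y : (P.law F).Pt, ‖P.ev₁ U y.val‖ = 1 := fun y => by
    have h := P.unit_close_of_coeff hU y.norm_lt
    rw [show P.ev₁ U y.val = (P.ev₁ U y.val - 1) + 1 by ring,
      IsUltrametricDist.norm_add_eq_max_of_norm_ne_norm (by rw [norm_one]; exact h.ne),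
      norm_one, max_eq_right h.le]
  have hmem : ∀ y, y ∈ R ↔ p ^ N • y = 0 := by
    intro y
    rw [hmemR, Polynomial.mem_roots hGm.ne_zero, Polynomial.IsRoot.def]
    refine ⟨fun e => DiscLaw.Pt.ext (by rw [hval, e, zero_mul]; rfl), fun e => ?_⟩
    have e' : (p ^ N • y).val = 0 := by rw [e]; rfl
    rw [hval, mul_eq_zero] at e'
    exact e'.resolve_right fun e'' => by have := hUnit y; simp [e''] at this
  obtain ⟨c, δ, hc, hδ, hasymp⟩ := P.exists_asymp hF hP N
  have hmult : ∀ r ∈ R, G.roots.count r.val = p ^ (h * N) := by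
    intro r hr
    have hC : 0 < ∏ z ∈ R.erase r, ‖r.val - z.val‖ ^ G.roots.count z.val :=
      Finset.prod_pos fun z hz => pow_pos (norm_pos_iff.2 (sub_ne_zero.2 fun e =>
        (Finset.mem_erase.1 hz).1 (DiscLaw.Pt.ext e.symm))) _
    set C := ∏ z ∈ R.erase r, ‖r.val - z.val‖ ^ G.roots.count z.val
    obtain ⟨ε, hε, hsep⟩ : ∃ ε > 0, ∀ z ∈ R.erase r, ε ≤ ‖r.val - z.val‖ := by
      rcases (R.erase r).eq_empty_or_nonempty with he | he
      · exact ⟨1, one_pos, fun z hz => absurd hz (by simp [he])⟩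
      · obtain ⟨w, hw, hmin⟩ := (R.erase r).exists_min_image (fun z => ‖r.val - z.val‖) he
        exact ⟨_, norm_pos_iff.2 (sub_ne_zero.2 fun e =>
          (Finset.mem_erase.1 hw).1 (DiscLaw.Pt.ext e.symm)), hmin⟩
    have key : ∀ y : (P.law F).Pt, y.val ≠ 0 → ‖y.val‖ < min δ ε →
        c * ‖y.val‖ ^ p ^ (h * N) = C * ‖y.val‖ ^ G.roots.count r.val := by
      intro y hy0 hyd
      rw [lt_min_iff] at hyd
      have hd : ‖(y + r).val - r.val‖ = ‖y.val‖ := by
        rw [← (P.law F).norm_val_sub, add_sub_cancel_right]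
      rw [← hasymp y hy0 hyd.1, ← show p ^ N • (y + r) = p ^ N • y by
        rw [smul_add, (hmem r).1 hr, _root_.add_zero], hval, norm_mul, hUnit, mul_one, hev,
        ← Finset.mul_prod_erase _ _ hr]
      rw [hd, mul_comm]
      congr 1
      refine Finset.prod_congr rfl fun z hz => ?_
      congr 1
      rw [show (y + r).val - z.val = ((y + r).val - r.val) + (r.val - z.val) by ring,
        IsUltrametricDist.norm_add_eq_max_of_norm_ne_norm
          (by rw [hd]; exact (hyd.2.trans_le (hsep z hz)).ne), hd,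
        max_eq_right (hyd.2.trans_le (hsep z hz)).le]
    have hh1 := hP.one_le
    obtain ⟨k, hk⟩ := exists_pow_lt_of_lt_one (lt_min hδ hε)
      (P.norm_x_lt (u_mem_maximalIdeal hh1 hP.lt))
    set t := P.x (u p n h) ^ (k + 1) with ht
    have ht0 : t ≠ 0 := pow_ne_zero _ hP.x_ne
    have htn : ‖t‖ < 1 := by
      rw [ht, norm_pow]
      exact pow_lt_one₀ (norm_nonneg _) (P.norm_x_lt (u_mem_maximalIdeal hh1 hP.lt)) (by omega)
    have htd : ‖t‖ < min δ ε := by
      refine lt_of_le_of_lt ?_ hk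
      rw [ht, norm_pow]
      exact pow_le_pow_of_le_one (norm_nonneg _) (P.norm_le _) (Nat.le_succ k)
    have htd2 : ‖t * t‖ < min δ ε := by
      rw [norm_mul]; exact (mul_le_of_le_one_left (norm_nonneg _) htn.le).trans_lt htd
    have k1 := key ⟨t, htn⟩ ht0 htd
    have htn2 : ‖t * t‖ < 1 := by
      rw [norm_mul]
      exact mul_lt_one_of_nonneg_of_lt_one_left (norm_nonneg _) htn htn.le
    have k2 := key ⟨t * t, htn2⟩ (mul_ne_zero ht0 ht0) htd2
    change c * ‖t‖ ^ _ = C * ‖t‖ ^ _ at k1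
    change c * ‖t * t‖ ^ _ = C * ‖t * t‖ ^ _ at k2
    rw [norm_mul, mul_pow, mul_pow, ← mul_assoc, ← mul_assoc, k1] at k2
    have hpos : 0 < C * ‖t‖ ^ G.roots.count r.val := by positivity
    exact (pow_right_injective₀ (norm_pos_iff.2 ht0) htn.ne
      (mul_left_cancel₀ hpos.ne' k2)).symm
  have hGR : G = ∏ r ∈ R, (Polynomial.X - Polynomial.C r.val) ^ p ^ (h * N) :=
    hprod.trans (Finset.prod_congr rfl fun r hr => by rw [hmult r hr])
  refine ⟨R, hmem, ?_, hGR⟩
  have hnd := congrArg Polynomial.natDegree hGR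
  rw [hG, hg.natDegree_map, hdeg, Polynomial.natDegree_prod _ _ fun r _ =>
    pow_ne_zero _ (Polynomial.X_sub_C_ne_zero _)] at hnd
  simp only [Polynomial.natDegree_pow, Polynomial.natDegree_X_sub_C, mul_one, Finset.sum_const,
    smul_eq_mul] at hnd
  rw [show n * N = (n - h) * N + h * N by rw [← add_mul, Nat.sub_add_cancel hP.lt.le],
    pow_add] at hnd
  exact (Nat.eq_of_mul_eq_mul_right (pow_pos (Fact.out : p.Prime).pos _) hnd).symm

/-- A monic polynomial over `E0` vanishing on the `p ^ N`-torsion of every point. -/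
theorem exists_torsion_poly (hF : IsHazewinkel p n F) (hn : 1 ≤ n) (N : ℕ) :
    ∃ Q : Polynomial (E0 p n), Q.Monic ∧ ∀ (P : Point p n) (y : (P.law F).Pt),
      p ^ N • y = 0 → Q.eval₂ P.x y.val = 0 := by
  obtain ⟨g, U, V, hg, -, -, hU, -, hfac⟩ := exists_factor hF hn N
  refine ⟨g, hg, fun P y hy => ?_⟩
  have h : (p ^ N • y).val = 0 := by rw [hy]; rfl
  rw [P.val_nsmul, hfac, P.ev₁_mul _ _ y.norm_lt, P.ev₁_coe g y.norm_lt, mul_eq_zero] at h
  rw [← Polynomial.eval_map]
  refine h.resolve_right fun e => ?_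
  have := P.unit_close_of_coeff hU y.norm_lt
  simp [e] at this

theorem exists_tower (hF : IsHazewinkel p n F) {h : ℕ} (hP : P.OnStratum h) :
    Nonempty (Tower (P.law F) p h (n - h)) := by
  classical
  have hn : 1 ≤ n := by have := hP.one_le; have := hP.lt; omega
  choose g U V hg hdeg hlow hU hUV hfac using exists_factor hF hn
  choose R hmem hcard hprod using fun N =>
    P.exists_roots hF hP (hg N) (hdeg N) (hlow N) (hU N) (hfac N)
  exact ⟨{
    prime := Fact.out
    one_le_h := hP.one_le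
    one_le_d := by have := hP.lt; omega
    roots := R
    mem_roots := hmem
    card_roots := hcard
    unit := fun N y => P.ev₁ (U N) y.val
    unit_close := fun N y => P.unit_close_of_coeff (hU N) y.norm_lt
    smul_eq := fun N y => by
      rw [P.val_nsmul, hfac, P.ev₁_mul _ _ y.norm_lt, P.ev₁_coe _ y.norm_lt, hprod N,
        Polynomial.eval_prod, mul_comm]
      simp only [Polynomial.eval_pow, Polynomial.eval_sub, Polynomial.eval_X, Polynomial.eval_C] }⟩

theorem norm_coeff_prod_le {ι : Type} (s : Finset ι) (q : ℕ) (a : ι → P.K)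
    (ha : ∀ i ∈ s, ‖a i‖ ≤ 1) (k : ℕ) :
    ‖(∏ i ∈ s, (Polynomial.X ^ q - Polynomial.C (a i))).coeff k‖ ≤ 1 := by
  classical
  induction s using Finset.induction_on generalizing k with
  | empty =>
    rw [Finset.prod_empty, Polynomial.coeff_one]
    split_ifs <;> simp
  | insert j s hj ih =>
    rw [Finset.forall_mem_insert] at ha
    rw [Finset.prod_insert hj, sub_mul, Polynomial.coeff_sub, Polynomial.coeff_X_pow_mul',
      Polynomial.coeff_C_mul, sub_eq_add_neg]
    refine (IsUltrametricDist.norm_add_le_max _ _).trans (max_le ?_ ?_)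
    · split_ifs
      · exact ih ha.2 _
      · simp
    · rw [norm_neg, norm_mul]
      exact mul_le_one₀ ha.1 (norm_nonneg _) (ih ha.2 _)

theorem norm_coeff_prod_sub_le {ι : Type} (s : Finset ι) (q : ℕ) (a b : ι → P.K) {ρ : ℝ}
    (hρ : 0 ≤ ρ) (ha : ∀ i ∈ s, ‖a i‖ ≤ 1) (hb : ∀ i ∈ s, ‖b i‖ ≤ 1)
    (hab : ∀ i ∈ s, ‖a i - b i‖ ≤ ρ) (k : ℕ) :
    ‖(∏ i ∈ s, (Polynomial.X ^ q - Polynomial.C (a i))).coeff k -
      (∏ i ∈ s, (Polynomial.X ^ q - Polynomial.C (b i))).coeff k‖ ≤ ρ := by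
  classical
  induction s using Finset.induction_on generalizing k with
  | empty => simpa using hρ
  | insert j s hj ih =>
    rw [Finset.forall_mem_insert] at ha hb hab
    rw [Finset.prod_insert hj, Finset.prod_insert hj, sub_mul, sub_mul, Polynomial.coeff_sub,
      Polynomial.coeff_sub, Polynomial.coeff_X_pow_mul', Polynomial.coeff_X_pow_mul',
      Polynomial.coeff_C_mul, Polynomial.coeff_C_mul, sub_sub_sub_comm, sub_eq_add_neg]
    refine (IsUltrametricDist.norm_add_le_max _ _).trans (max_le ?_ ?_)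
    · split_ifs
      · exact ih ha.2 hb.2 hab.2 _
      · simpa using hρ
    · rw [norm_neg]
      set A := (∏ i ∈ s, (Polynomial.X ^ q - Polynomial.C (a i))).coeff k
      set B := (∏ i ∈ s, (Polynomial.X ^ q - Polynomial.C (b i))).coeff k
      rw [show a j * A - b j * B = (a j - b j) * A + b j * (A - B) by ring]
      refine (IsUltrametricDist.norm_add_le_max _ _).trans (max_le ?_ ?_) <;> rw [norm_mul]
      · exact (mul_le_of_le_one_right (norm_nonneg _) (P.norm_coeff_prod_le s q a ha.2 k)).trans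
          hab.1
      · exact (mul_le_of_le_one_left (norm_nonneg _) hb.1).trans (ih ha.2 hb.2 hab.2 k)

/-- A series with unit linear term and no constant term preserves sizes. -/
theorem norm_ev₁_eq {φ : PowerSeries (E0 p n)} (h0 : PowerSeries.constantCoeff φ = 0)
    (h1 : IsUnit (PowerSeries.coeff 1 φ)) {y : P.K} (hy : ‖y‖ < 1) : ‖P.ev₁ φ y‖ = ‖y‖ := by
  set f := φ - PowerSeries.C (PowerSeries.coeff 1 φ) * PowerSeries.X ^ 1
  have hf : ‖P.ev₁ f y‖ ≤ ‖y‖ ^ 2 := by
    refine P.norm_ev_le_pow (y := fun _ : Unit => y) _ (fun d hd => ?_) (fun _ => le_rfl)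
      (norm_nonneg _) hy.le
    rw [Finsupp.degree_eq_sum, Fintype.sum_unique] at hd
    have : PowerSeries.coeff (d ()) f = 0 := by
      simp only [f, map_sub, PowerSeries.coeff_C_mul, PowerSeries.coeff_X_pow]
      rcases Nat.le_one_iff_eq_zero_or_eq_one.1 (Nat.lt_succ_iff.1 hd) with h | h <;>
        simp [show d () = _ from h, PowerSeries.coeff_zero_eq_constantCoeff_apply, h0]
    rw [PowerSeries.coeff, ← Finsupp.unique_single d] at this
    exact this
  have hsplit : P.ev₁ φ y = P.ev₁ f y + P.x (PowerSeries.coeff 1 φ) * y := by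
    have e : P.ev₁ (PowerSeries.C (PowerSeries.coeff 1 φ) * PowerSeries.X ^ 1) y =
        P.x (PowerSeries.coeff 1 φ) * y := by
      rw [P.ev₁_mul _ _ hy, ev₁_C, P.ev₁_X_pow 1 hy, pow_one]
    rw [← e, ev₁, ev₁, ev₁, ← P.ev_add _ _ fun _ => hy, sub_add_cancel]
  rcases eq_or_ne y 0 with rfl | hy0
  · rw [norm_zero] at hf
    simp only [ne_eq, OfNat.ofNat_ne_zero, not_false_eq_true, zero_pow, norm_le_zero_iff] at hf
    rw [hsplit, hf, mul_zero, _root_.add_zero]
  · have hlt : ‖P.ev₁ f y‖ < ‖P.x (PowerSeries.coeff 1 φ) * y‖ := by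
      rw [norm_mul, P.norm_x_unit h1, one_mul]
      exact hf.trans_lt (by nlinarith [norm_pos_iff.2 hy0])
    rw [hsplit, IsUltrametricDist.norm_add_eq_max_of_norm_ne_norm hlt.ne, max_eq_right hlt.le,
      norm_mul, P.norm_x_unit h1, one_mul]

omit [F.IsComm] in
theorem norm_x_span_moved (σ : E0 p n →ₐ[W p n] E0 p n) {D : ℝ} (hD0 : 0 ≤ D)
    (hD : ∀ i : Fin (n - 1), ‖P.x (σ (MvPowerSeries.X i)) - P.x (MvPowerSeries.X i)‖ ≤ D)
    (a : E0 p n) : ‖P.x (σ a) - P.x a‖ ≤ D := by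
  rw [← map_sub]
  refine Submodule.span_induction (fun z hz => ?_) (by simpa using hD0) (fun z w _ _ hz hw => ?_)
    (fun c z _ hz => ?_) (sub_mem_span_moved σ a)
  · obtain ⟨i, rfl⟩ := hz
    rw [map_sub]; exact hD i
  · rw [map_add]; exact (IsUltrametricDist.norm_add_le_max _ _).trans (max_le hz hw)
  · rw [smul_eq_mul, map_mul, norm_mul]
    exact (mul_le_of_le_one_left (norm_nonneg _) (P.norm_le _)).trans hz

/-- A homomorphism which moves the `p`-torsion by at most `ρ` (in the coordinate `r ^ (p ^ h)`)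
moves the point by at most `ρ`. -/
theorem norm_move_le (hF : IsHazewinkel p n F) {h : ℕ} (hP : P.OnStratum h)
    (T : Tower (P.law F) p h (n - h)) (σ : E0 p n →ₐ[W p n] E0 p n)
    (hσ : ∀ a ∈ IsLocalRing.maximalIdeal (E0 p n), σ a ∈ IsLocalRing.maximalIdeal (E0 p n))
    (hP' : (P.comp σ hσ).OnStratum h) (φ : PowerSeries (E0 p n))
    (hφ : IsHom F (F.map σ.toRingHom) φ) (hφ1 : IsUnit (PowerSeries.coeff 1 φ)) {ρ : ℝ}
    (hρ : ∀ r ∈ T.roots 1, ‖P.ev₁ φ r.val ^ p ^ h - r.val ^ p ^ h‖ ≤ ρ) :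
    ∀ a, ‖P.x (σ a) - P.x a‖ ≤ ρ := by
  classical
  have h1 := hP.one_le
  have hlt := hP.lt
  have hn : 1 ≤ n := by omega
  have hρ0 : 0 ≤ ρ := (norm_nonneg _).trans (hρ 0 (T.zero_mem_roots 1))
  have : CharP P.K p := (CharP.charP_iff_prime_eq_zero Fact.out).2 (by
    rw [← map_natCast P.x]; exact hP.x_p)
  obtain ⟨g, U, V, hg, hdeg, hlow, hU, hUV, hfac⟩ := exists_factor hF hn 1
  obtain ⟨R, hR, hRc, hRg⟩ := P.exists_roots hF hP hg hdeg hlow hU hfac
  obtain ⟨R', hR', hRc', hRg'⟩ := (P.comp σ hσ).exists_roots hF hP' hg hdeg hlow hU hfac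
  rw [mul_one] at hRg hRg'
  -- the map induced by `φ`
  have hadd : ∀ y z : P.K, (P.comp σ hσ).add F y z = P.add (F.map σ.toRingHom) y z := fun y z =>
    P.ev_map σ hσ _ _
  let ψ : (P.law F).Pt →+ ((P.comp σ hσ).law F).Pt := AddMonoidHom.mk'
    (fun r => ⟨P.ev₁ φ r.val, show ‖P.ev₁ φ r.val‖ < 1 by
      rw [P.norm_ev₁_eq hφ.1 hφ1 r.norm_lt]; exact r.norm_lt⟩)
    fun r s => DiscLaw.Pt.ext (by
      change P.ev₁ φ (P.add F r.val s.val) = (P.comp σ hσ).add F _ _
      rw [P.ev₁_isHom F hφ r.norm_lt s.norm_lt]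
      exact (hadd _ _).symm)
  have hψn : ∀ r, ‖(ψ r).val‖ = ‖r.val‖ := fun r => P.norm_ev₁_eq hφ.1 hφ1 r.norm_lt
  have hinj : Function.Injective ψ := (injective_iff_map_eq_zero ψ).2 fun r hr =>
    DiscLaw.Pt.ext (norm_eq_zero.1 (by rw [← hψn, hr]; exact norm_zero))
  have himg : R.image ψ = R' := by
    refine Finset.eq_of_subset_of_card_le (fun z hz => ?_) ?_
    · obtain ⟨r, hr, rfl⟩ := Finset.mem_image.1 hz
      rw [hR', ← map_nsmul, (hR r).1 hr, map_zero]
    · rw [Finset.card_image_of_injective _ hinj, hRc, hRc']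
  -- coefficients of the distinguished polynomial
  have hcoef : ∀ k, ‖P.x (σ (g.coeff k)) - P.x (g.coeff k)‖ ≤ ρ := by
    intro k
    have e1 : g.map P.x =
        ∏ r ∈ R, (Polynomial.X ^ p ^ h - Polynomial.C (r.val ^ p ^ h)) := hRg.trans
      (Finset.prod_congr rfl fun r _ => by rw [sub_pow_char_pow, ← Polynomial.C_pow])
    have e3 : g.map (P.x.comp σ.toRingHom) =
        ∏ r ∈ R, ((Polynomial.X : Polynomial P.K) - Polynomial.C (P.ev₁ φ r.val)) ^ p ^ h := by
      refine hRg'.trans ?_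
      rw [← himg, Finset.prod_image hinj.injOn]
      rfl
    have e2 : g.map (P.x.comp σ.toRingHom) =
        ∏ r ∈ R, (Polynomial.X ^ p ^ h - Polynomial.C (P.ev₁ φ r.val ^ p ^ h)) :=
      e3.trans (Finset.prod_congr rfl fun r _ => by rw [sub_pow_char_pow, ← Polynomial.C_pow])
    have e1' := congrArg (fun f => Polynomial.coeff f k) e1
    have e2' := congrArg (fun f => Polynomial.coeff f k) e2
    simp only [Polynomial.coeff_map] at e1' e2'
    change ‖(P.x.comp σ.toRingHom) (g.coeff k) - _‖ ≤ ρ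
    rw [e1', e2']
    refine P.norm_coeff_prod_sub_le R _ _ _ hρ0 (fun r _ => ?_) (fun r _ => ?_) (fun r hr =>
      hρ r ((T.mem_roots 1 r).2 ((hR r).1 hr))) k
    · rw [norm_pow, P.norm_ev₁_eq hφ.1 hφ1 r.norm_lt]
      exact pow_le_one₀ (norm_nonneg _) r.norm_lt.le
    · rw [norm_pow]; exact pow_le_one₀ (norm_nonneg _) r.norm_lt.le
  -- the largest motion of a parameter
  obtain ⟨r, hr0, hr1, hr⟩ := P.exists_norm_le_pow
  obtain ⟨i0, -, hi0⟩ := (Finset.univ : Finset (Fin (n - 1))).exists_max_image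
    (fun i => ‖P.x (σ (MvPowerSeries.X i)) - P.x (MvPowerSeries.X i)‖)
    ⟨⟨0, by omega⟩, Finset.mem_univ _⟩
  set D := ‖P.x (σ (MvPowerSeries.X i0)) - P.x (MvPowerSeries.X i0)‖
  have hD : ∀ a, ‖P.x (σ a) - P.x a‖ ≤ D :=
    P.norm_x_span_moved σ (norm_nonneg _) fun i => hi0 i (Finset.mem_univ i)
  set E := max ρ (D * r)
  have hE0 : 0 ≤ E := hρ0.trans (le_max_left _ _)
  -- the motion of `a * b`
  have hmul : ∀ a b, P.x (σ (a * b)) - P.x (a * b) =
      P.x (σ a) * (P.x (σ b) - P.x b) + (P.x (σ a) - P.x a) * P.x b := fun a b => by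
    rw [map_mul, map_mul, map_mul]; ring
  have hstep : ∀ i, 1 ≤ i → i < n → ‖P.x (σ (u p n i)) - P.x (u p n i)‖ ≤ E := by
    intro i
    induction i using Nat.strong_induction_on with
    | _ i ih =>
    intro hi hin
    obtain ⟨v, hv, hmem⟩ := coeff_factor hF hUV (by rw [← hfac, pow_one]) hi hin.le
    have hgen : ∀ z ∈ heightIdeal p n i, z ∈ IsLocalRing.maximalIdeal (E0 p n) ∧
        ‖P.x (σ z) - P.x z‖ ≤ E := by
      intro z hz
      rw [heightIdeal, if_neg (by omega)] at hz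
      refine Submodule.span_induction (fun w hw => ?_) ⟨zero_mem _, by simpa using hE0⟩
        (fun w w' _ _ hw hw' => ⟨add_mem hw.1 hw'.1, ?_⟩) (fun c w _ hw => ?_) hz
      · rcases hw with rfl | ⟨l, ⟨hl1, hl2⟩, rfl⟩
        · refine ⟨residueMap_eq_zero_iff.1 ?_, ?_⟩
          · rw [map_natCast]; exact CharP.cast_eq_zero _ p
          · rw [map_natCast, sub_self, norm_zero]; exact hE0
        · exact ⟨u_mem_maximalIdeal hl1 (by omega), ih l hl2 hl1 (by omega)⟩
      · rw [map_add, map_add, map_add, add_sub_add_comm]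
        exact (IsUltrametricDist.norm_add_le_max _ _).trans (max_le hw.2 hw'.2)
      · refine ⟨Ideal.mul_mem_left _ c hw.1, ?_⟩
        rw [smul_eq_mul, hmul]
        refine (IsUltrametricDist.norm_add_le_max _ _).trans (max_le ?_ ?_) <;> rw [norm_mul]
        · exact (mul_le_of_le_one_left (norm_nonneg _) (P.norm_le _)).trans hw.2
        · exact (mul_le_mul (hD c) (by simpa using hr 1 w (by rw [pow_one]; exact hw.1))
            (norm_nonneg _) (norm_nonneg _)).trans (le_max_right _ _)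
    set z := g.coeff (p ^ i) - v * u p n i
    have hid : P.x (σ v) * (P.x (σ (u p n i)) - P.x (u p n i)) =
        (P.x (σ (g.coeff (p ^ i))) - P.x (g.coeff (p ^ i))) - (P.x (σ z) - P.x z) -
          (P.x (σ v) - P.x v) * P.x (u p n i) := by
      simp only [z, map_sub, map_mul]; ring
    calc ‖P.x (σ (u p n i)) - P.x (u p n i)‖
        = ‖P.x (σ v) * (P.x (σ (u p n i)) - P.x (u p n i))‖ := by
          rw [norm_mul, P.norm_x_unit (hv.map σ), one_mul]
      _ ≤ E := by
          rw [hid, sub_eq_add_neg, sub_eq_add_neg (P.x (σ (g.coeff (p ^ i))) - _)]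
          refine (IsUltrametricDist.norm_add_le_max _ _).trans (max_le
            ((IsUltrametricDist.norm_add_le_max _ _).trans (max_le
              ((hcoef _).trans (le_max_left _ _)) ?_)) ?_) <;> rw [norm_neg]
          · exact (hgen z hmem).2
          · rw [norm_mul]
            exact (mul_le_mul (hD v) (by
              simpa using hr 1 _ (by rw [pow_one]; exact u_mem_maximalIdeal hi hin))
              (norm_nonneg _) (norm_nonneg _)).trans (le_max_right _ _)
  have hDE : D ≤ E := by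
    have hu : u p n (i0.1 + 1) = MvPowerSeries.X i0 := by
      rw [u, dif_pos ⟨by omega, by omega⟩]; rfl
    have := hstep (i0.1 + 1) (by omega) (by omega)
    rwa [hu] at this
  intro a
  refine (hD a).trans ?_
  rcases le_max_iff.1 hDE with h' | h'
  · exact h'
  · nlinarith [norm_nonneg (P.x (σ (MvPowerSeries.X i0)) - P.x (MvPowerSeries.X i0))]

end Point

end Vale.Agent.P217
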