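import Mathlib

/-!
# P217: transport of polynomial relations along nearby ring maps

A single relation moves: it is integral over the base, and a small root of the moved integral
equation is zero. All relations move at once, since finitely many of them, one for each module
generator outside a maximal independent set, imply the others up to a nonzero base element.
-/

noncomputable section

namespace Vale.Agent.P217

open Filter Topology

namespace Transport

variable {R K : Type} [CommRing R] {r : ℕ}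

/-- The ideal of the equations `Q i (X i)`. -/
def eqnIdeal (Q : Fin r → Polynomial R) : Ideal (MvPolynomial (Fin r) R) :=
  Ideal.span (Set.range fun i => (Q i).eval₂ MvPolynomial.C (MvPolynomial.X i))

lemma eval₂_eq_zero_of_mem [CommRing K] (Q : Fin r → Polynomial R) (ψ : R →+* K)
    (t : Fin r → K) (ht : ∀ i, (Q i).eval₂ ψ (t i) = 0) :
    eqnIdeal Q ≤ RingHom.ker (MvPolynomial.eval₂Hom ψ t) := by
  rw [eqnIdeal, Ideal.span_le]
  rintro _ ⟨i, rfl⟩
  rw [SetLike.mem_coe, RingHom.mem_ker, Polynomial.hom_eval₂, MvPolynomial.eval₂Hom_X']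
  have h : (MvPolynomial.eval₂Hom ψ t).comp MvPolynomial.C = ψ :=
    RingHom.ext fun a => MvPolynomial.eval₂Hom_C ψ t a
  rw [h, ht i]

lemma isIntegral_mk (Q : Fin r → Polynomial R) (hQ : ∀ i, (Q i).Monic)
    (H : MvPolynomial (Fin r) R) :
    IsIntegral R (Ideal.Quotient.mk (eqnIdeal Q) H) := by
  induction H using MvPolynomial.induction_on with
  | C a =>
    exact (isIntegral_algebraMap (R := R) (A := MvPolynomial (Fin r) R ⧸ eqnIdeal Q) (x := a))
  | add f g hf hg =>
    rw [map_add]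
    exact hf.add hg
  | mul_X f i hf =>
    rw [map_mul]
    refine hf.mul ⟨Q i, hQ i, ?_⟩
    have h : Ideal.Quotient.mk (eqnIdeal Q) ((Q i).eval₂ MvPolynomial.C (MvPolynomial.X i)) = 0 :=
      Ideal.Quotient.eq_zero_iff_mem.2 (Ideal.subset_span ⟨i, rfl⟩)
    rw [Polynomial.hom_eval₂] at h
    exact h

lemma module_finite (Q : Fin r → Polynomial R) (hQ : ∀ i, (Q i).Monic) :
    Module.Finite R (MvPolynomial (Fin r) R ⧸ eqnIdeal Q) := by
  have hint : Algebra.IsIntegral R (MvPolynomial (Fin r) R ⧸ eqnIdeal Q) := ⟨fun z => by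
    obtain ⟨H, rfl⟩ := Ideal.Quotient.mk_surjective z
    exact isIntegral_mk Q hQ H⟩
  have hft : Algebra.FiniteType R (MvPolynomial (Fin r) R ⧸ eqnIdeal Q) :=
    (inferInstance : Algebra.FiniteType R (MvPolynomial (Fin r) R)).of_surjective
      (Ideal.Quotient.mkₐ R (eqnIdeal Q)) Ideal.Quotient.mk_surjective
  exact Algebra.IsIntegral.finite

variable [NormedField K]

lemma tendsto_eval₂Hom (x : R →+* K) (x' : ℕ → R →+* K)
    (hlim : ∀ a, Tendsto (fun m => x' m a) atTop (𝓝 (x a))) (T : Fin r → K)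
    (T' : ℕ → Fin r → K) (hTlim : ∀ i, Tendsto (fun m => T' m i) atTop (𝓝 (T i)))
    (H : MvPolynomial (Fin r) R) :
    Tendsto (fun m => MvPolynomial.eval₂Hom (x' m) (T' m) H) atTop
      (𝓝 (MvPolynomial.eval₂Hom x T H)) := by
  induction H using MvPolynomial.induction_on with
  | C a => simpa using hlim a
  | add f g hf hg => simpa using hf.add hg
  | mul_X f i hf => simpa using hf.mul (hTlim i)

/-- A single relation moves. -/
lemma eventually_eval₂_eq_zero (x : R →+* K) (x' : ℕ → R →+* K)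
    (hker : ∀ᶠ m in atTop, RingHom.ker x ≤ RingHom.ker (x' m))
    (hlim : ∀ a, Tendsto (fun m => x' m a) atTop (𝓝 (x a))) (T : Fin r → K)
    (T' : ℕ → Fin r → K) (Q : Fin r → Polynomial R) (hQ : ∀ i, (Q i).Monic)
    (hQT' : ∀ᶠ m in atTop, ∀ i, (Q i).eval₂ (x' m) (T' m i) = 0)
    (hTlim : ∀ i, Tendsto (fun m => T' m i) atTop (𝓝 (T i)))
    (H : MvPolynomial (Fin r) R) (hH : MvPolynomial.eval₂Hom x T H = 0) :
    ∀ᶠ m in atTop, MvPolynomial.eval₂Hom (x' m) (T' m) H = 0 := by
  classical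
  obtain ⟨P, hPm, hP⟩ := isIntegral_mk Q hQ H
  have hPI : P.eval₂ MvPolynomial.C H ∈ eqnIdeal Q := by
    rw [← Ideal.Quotient.eq_zero_iff_mem, Polynomial.hom_eval₂]
    exact hP
  have hex : ∃ j, x (P.coeff j) ≠ 0 := ⟨P.natDegree, by rw [hPm.coeff_natDegree]; simp⟩
  set k := Nat.find hex with hk
  obtain ⟨e, he⟩ : ∃ e, P.natDegree = k + e :=
    Nat.exists_eq_add_of_le (Nat.find_min' hex (by rw [hPm.coeff_natDegree]; simp))
  set h' : ℕ → K := fun m => MvPolynomial.eval₂Hom (x' m) (T' m) H with hh'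
  have h0 : Tendsto h' atTop (𝓝 0) := hH ▸ tendsto_eval₂Hom x x' hlim T T' hTlim H
  have hsum : Tendsto (fun m => ∑ j ∈ Finset.range (e + 1), x' m (P.coeff (k + j)) * h' m ^ j)
      atTop (𝓝 (x (P.coeff k))) := by
    have hval : ∑ j ∈ Finset.range (e + 1), x (P.coeff (k + j)) * (0 : K) ^ j =
        x (P.coeff k) := by simp [Finset.sum_range_succ']
    rw [← hval]
    exact tendsto_finsetSum _ fun j _ => (hlim _).mul (h0.pow j)
  filter_upwards [hker, hQT', hsum.eventually_ne (Nat.find_spec hex)] with m hm hroot hne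
  have heq : P.eval₂ (x' m) (h' m) = 0 := by
    have h1 := eval₂_eq_zero_of_mem Q (x' m) (T' m) hroot hPI
    rw [RingHom.mem_ker, Polynomial.hom_eval₂] at h1
    convert h1 using 2
    exact RingHom.ext fun a => (MvPolynomial.eval₂Hom_C (x' m) (T' m) a).symm
  have hfac : h' m ^ k * ∑ j ∈ Finset.range (e + 1), x' m (P.coeff (k + j)) * h' m ^ j = 0 := by
    rw [← heq, Polynomial.eval₂_eq_sum_range, he,
      show k + e + 1 = k + (e + 1) by omega, Finset.sum_range_add _ k (e + 1), Finset.mul_sum]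
    rw [Finset.sum_eq_zero (s := Finset.range k) (fun j hj => ?_), zero_add]
    · exact Finset.sum_congr rfl fun j _ => by rw [pow_add]; ring
    · have : P.coeff j ∈ RingHom.ker x := by
        simpa [RingHom.mem_ker] using Nat.find_min hex (Finset.mem_range.1 hj)
      rw [RingHom.mem_ker.1 (hm this), zero_mul]
  rcases mul_eq_zero.1 hfac with h | h
  · exact (pow_eq_zero_iff').1 h |>.1
  · exact absurd h hne

/-- A maximal independent subfamily of a finite family, with relations for all members. -/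
lemma exists_relations {N : ℕ} (x : R →+* K) (v : Fin N → K) :
    ∃ (s : Finset (Fin N)) (d : Fin N → R) (a : Fin N → Fin N → R),
      (∀ c : Fin N → R, ∑ j ∈ s, x (c j) * v j = 0 → ∀ j ∈ s, x (c j) = 0) ∧
      (∀ l, x (d l) ≠ 0) ∧ ∀ l, x (d l) * v l = ∑ j ∈ s, x (a l j) * v j := by
  classical
  set good : Finset (Finset (Fin N)) := Finset.univ.filter fun s =>
    ∀ c : Fin N → R, ∑ j ∈ s, x (c j) * v j = 0 → ∀ j ∈ s, x (c j) = 0 with hgood
  obtain ⟨s, hs, hmax⟩ := good.exists_max_image Finset.card ⟨∅, by simp [hgood]⟩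
  have hs' : ∀ c : Fin N → R, ∑ j ∈ s, x (c j) * v j = 0 → ∀ j ∈ s, x (c j) = 0 := by
    simpa [hgood] using hs
  have hrel : ∀ l, ∃ (d : R) (a : Fin N → R),
      x d ≠ 0 ∧ x d * v l = ∑ j ∈ s, x (a j) * v j := by
    intro l
    by_cases hl : l ∈ s
    · exact ⟨1, fun j => if j = l then 1 else 0, by simp,
        by simp [apply_ite, ite_mul, Finset.sum_ite_eq', hl]⟩
    have hnot : insert l s ∉ good := fun h => by
      have := hmax _ h
      rw [Finset.card_insert_of_notMem hl] at this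
      omega
    simp only [hgood, Finset.mem_filter, Finset.mem_univ, true_and, not_forall] at hnot
    obtain ⟨c, hc, j, hj, hcj⟩ := hnot
    rw [Finset.sum_insert hl] at hc
    refine ⟨c l, fun j => -c j, fun h0 => ?_, ?_⟩
    · rw [h0, zero_mul, zero_add] at hc
      rcases Finset.mem_insert.1 hj with rfl | hj
      · exact hcj h0
      · exact hcj (hs' c hc j hj)
    · simp only [map_neg, neg_mul, Finset.sum_neg_distrib]
      exact eq_neg_of_add_eq_zero_left hc
  choose d a hd ha using hrel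
  exact ⟨s, d, a, hs', hd, ha⟩

/-- All relations move at once. -/
lemma eventually_ker_le (x : R →+* K) (x' : ℕ → R →+* K)
    (hker : ∀ᶠ m in atTop, RingHom.ker x ≤ RingHom.ker (x' m))
    (hlim : ∀ a, Tendsto (fun m => x' m a) atTop (𝓝 (x a))) (T : Fin r → K)
    (T' : ℕ → Fin r → K) (Q : Fin r → Polynomial R) (hQ : ∀ i, (Q i).Monic)
    (hQT : ∀ i, (Q i).eval₂ x (T i) = 0)
    (hQT' : ∀ᶠ m in atTop, ∀ i, (Q i).eval₂ (x' m) (T' m i) = 0)
    (hTlim : ∀ i, Tendsto (fun m => T' m i) atTop (𝓝 (T i))) :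
    ∀ᶠ m in atTop, RingHom.ker (MvPolynomial.eval₂Hom x T) ≤
      RingHom.ker (MvPolynomial.eval₂Hom (x' m) (T' m)) := by
  classical
  obtain ⟨N, q, hq⟩ := @Module.Finite.exists_fin R (MvPolynomial (Fin r) R ⧸ eqnIdeal Q)
    _ _ _ (module_finite Q hQ)
  choose g hg using fun l => Ideal.Quotient.mk_surjective (q l)
  obtain ⟨s, d, a, hs, hd, ha⟩ :=
    exists_relations x fun l => MvPolynomial.eval₂Hom x T (g l)
  have hrho : ∀ l, ∀ᶠ m in atTop, MvPolynomial.eval₂Hom (x' m) (T' m)
      (MvPolynomial.C (d l) * g l - ∑ j ∈ s, MvPolynomial.C (a l j) * g j) = 0 := fun l =>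
    eventually_eval₂_eq_zero x x' hker hlim T T' Q hQ hQT' hTlim _ (by
      simp only [map_sub, map_mul, map_sum, MvPolynomial.eval₂Hom_C, ha l, sub_self])
  have hprod : ∀ᶠ m in atTop, ∀ l, x' m (d l) ≠ 0 :=
    eventually_all.2 fun l => (hlim _).eventually_ne (hd l)
  filter_upwards [hker, hQT', eventually_all.2 hrho, hprod] with m hm hroot hrel hne
  intro H hH
  have hspan : Ideal.Quotient.mk (eqnIdeal Q) H ∈ Submodule.span R (Set.range q) := by
    rw [hq]; trivial
  obtain ⟨c, hc⟩ := (Submodule.mem_span_range_iff_exists_fun R).1 hspan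
  have hmem : H - ∑ l, MvPolynomial.C (c l) * g l ∈ eqnIdeal Q := by
    rw [← Ideal.Quotient.eq, ← hc, map_sum]
    exact Finset.sum_congr rfl fun l _ => by rw [← MvPolynomial.smul_eq_C_mul, ← hg l]; rfl
  have e1 := RingHom.mem_ker.1 (eval₂_eq_zero_of_mem Q x T hQT hmem)
  have e2 := RingHom.mem_ker.1 (eval₂_eq_zero_of_mem Q (x' m) (T' m) hroot hmem)
  simp only [map_sub, map_mul, map_sum, MvPolynomial.eval₂Hom_C, RingHom.mem_ker.1 hH,
    zero_sub, neg_eq_zero, sub_eq_zero] at e1 e2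
  rw [RingHom.mem_ker, e2]
  simp only [map_sub, map_mul, map_sum, MvPolynomial.eval₂Hom_C, sub_eq_zero] at hrel
  set D := ∏ l, d l with hD
  have hco : ∀ l, ∃ b, D = b * d l := fun l =>
    ⟨∏ k ∈ Finset.univ.erase l, d k, (Finset.prod_erase_mul _ _ (Finset.mem_univ l)).symm⟩
  choose b hb using hco
  have key : ∀ (ψ : R →+* K) (w : Fin N → K),
      (∀ l, ψ (d l) * w l = ∑ j ∈ s, ψ (a l j) * w j) →
      ψ D * ∑ l, ψ (c l) * w l = ∑ j ∈ s, ψ (∑ l, c l * b l * a l j) * w j := by
    intro ψ w hw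
    calc ψ D * ∑ l, ψ (c l) * w l = ∑ l, ψ (c l * b l) * (ψ (d l) * w l) := by
          rw [Finset.mul_sum]
          exact Finset.sum_congr rfl fun l _ => by rw [hb l, map_mul, map_mul]; ring
      _ = ∑ l, ∑ j ∈ s, ψ (c l * b l * a l j) * w j := by
          refine Finset.sum_congr rfl fun l _ => ?_
          rw [hw l, Finset.mul_sum]
          exact Finset.sum_congr rfl fun j _ => by rw [map_mul ψ (c l * b l)]; ring
      _ = _ := by
          rw [Finset.sum_comm]
          exact Finset.sum_congr rfl fun j _ => by rw [map_sum, Finset.sum_mul]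
  have k1 := key x _ ha
  rw [e1, mul_zero] at k1
  have k2 := key (x' m) _ hrel
  rw [Finset.sum_eq_zero (s := s) fun j hj => ?_] at k2
  · refine (mul_eq_zero.1 k2).resolve_left ?_
    rw [hD, map_prod]
    exact Finset.prod_ne_zero_iff.2 fun l _ => hne l
  · rw [RingHom.mem_ker.1 (hm (RingHom.mem_ker.2
      (hs (fun j => ∑ l, c l * b l * a l j) k1.symm j hj))), zero_mul]

end Transport

/-- If `x' m → x` pointwise, `ker x ≤ ker x' m`, and `T' m i → T i` are roots of the moved monic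
equations, then for large `m` there is a ring map from `(x R)[T]` sending `x a` to `x' m a` and
`T i` to `T' m i`. -/
theorem exists_transport {R K : Type} [CommRing R] [NormedField K] [IsUltrametricDist K]
    (x : R →+* K) (x' : ℕ → R →+* K) (hx : ∀ a, ‖x a‖ ≤ 1)
    (hker : ∀ᶠ m in atTop, RingHom.ker x ≤ RingHom.ker (x' m))
    (hlim : ∀ a, Tendsto (fun m => x' m a) atTop (𝓝 (x a)))
    {r : ℕ} (T : Fin r → K) (T' : ℕ → Fin r → K) (hT : ∀ i, ‖T i‖ ≤ 1)
    (Q : Fin r → Polynomial R) (hQ : ∀ i, (Q i).Monic) (hQT : ∀ i, (Q i).eval₂ x (T i) = 0)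
    (hQT' : ∀ᶠ m in atTop, ∀ i, (Q i).eval₂ (x' m) (T' m i) = 0)
    (hTlim : ∀ i, Tendsto (fun m => T' m i) atTop (𝓝 (T i))) :
    ∀ᶠ m in atTop, ∃ τ : Subring.closure ((x.range : Set K) ∪ Set.range T) →+* K,
      (∀ a, τ ⟨x a, Subring.subset_closure (Or.inl ⟨a, rfl⟩)⟩ = x' m a) ∧
      ∀ i, τ ⟨T i, Subring.subset_closure (Or.inr ⟨i, rfl⟩)⟩ = T' m i := by
  set e := MvPolynomial.eval₂Hom x T with he
  set S := Subring.closure ((x.range : Set K) ∪ Set.range T) with hS
  have hmem : ∀ H, e H ∈ S := fun H => by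
    induction H using MvPolynomial.induction_on with
    | C a => exact Subring.subset_closure (Or.inl ⟨a, by simp [he]⟩)
    | add f g hf hg => rw [map_add]; exact add_mem hf hg
    | mul_X f i hf =>
      rw [map_mul]
      exact mul_mem hf (Subring.subset_closure (Or.inr ⟨i, by simp [he]⟩))
  set f : MvPolynomial (Fin r) R →+* S := e.codRestrict S hmem with hf
  have hsurj : Function.Surjective f := by
    have hle : S ≤ e.range := by
      rw [hS, Subring.closure_le]
      rintro _ (⟨a, rfl⟩ | ⟨i, rfl⟩)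
      · exact ⟨MvPolynomial.C a, by simp [he]⟩
      · exact ⟨MvPolynomial.X i, by simp [he]⟩
    rintro ⟨z, hz⟩
    obtain ⟨H, hH⟩ := hle hz
    exact ⟨H, Subtype.ext hH⟩
  filter_upwards [Transport.eventually_ker_le x x' hker hlim T T' Q hQ hQT hQT' hTlim] with m hm
  have hmf : RingHom.ker f ≤ RingHom.ker (MvPolynomial.eval₂Hom (x' m) (T' m)) := fun H hH =>
    hm (RingHom.mem_ker.2 (congrArg Subtype.val (RingHom.mem_ker.1 hH)))
  refine ⟨f.liftOfSurjective hsurj ⟨_, hmf⟩, fun a => ?_, fun i => ?_⟩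
  · rw [show (⟨x a, _⟩ : S) = f (MvPolynomial.C a) from
      Subtype.ext (by simp [hf, he]), RingHom.liftOfRightInverse_comp_apply]
    simp
  · rw [show (⟨T i, _⟩ : S) = f (MvPolynomial.X i) from
      Subtype.ext (by simp [hf, he]), RingHom.liftOfRightInverse_comp_apply]
    simp

end Vale.Agent.P217
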