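import Vale.Agent.P217.LT.Universal
import Vale.Agent.P217.LT.Heights
import Vale.Agent.P217.Point.Exists
import Vale.Agent.P217.Core.EngineData
import Vale.Agent.P217.Core.Disp.Slopes
import Vale.Agent.P217.Core.Disp.Residue
import Vale.Agent.P217.Tors.Rows
import Vale.Agent.P217.Tors.Disjoint

/-!
# P217 modules E and F: torsion, rows, displacement, transport
-/

noncomputable section

namespace Vale.Agent.P217

open Tors Filter Topology
open scoped Classical

variable {p n : ℕ} [Fact p.Prime] {F : FormalGroup (E0 p n)}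

theorem exists_engineData (hF : IsHazewinkel p n F) [F.IsComm] {I : Ideal (E0 p n)} {h j : ℕ}
    (hI : I.IsPrime) (hinv : IsNearInvariant p n F I) (h1 : 1 ≤ h) (hj : h + 2 ≤ j) (hjn : j ≤ n)
    (hle : heightIdeal p n h ≤ I) (hu : u p n h ∉ I)
    (hrad : (I ⊔ Ideal.span {u p n h}).radical = heightIdeal p n j) :
    Nonempty (EngineData p n) := by
  obtain ⟨P, hP, T, s, hker, hpdeg, hsc, hs, hirr⟩ :=
    exists_slope_tower hF hI h1 hj hjn hle hu hrad
  rw [← hker] at hinv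
  haveI := P.charP hP.x_p
  have hn : 1 ≤ n := by omega
  have hnn : h + (n - h) = n := by omega
  obtain ⟨z0, a, b, hz0, hne, hpair⟩ := T.exists_rows s hsc (by omega) hs hirr
  -- the bound on the maximal ideal
  obtain ⟨r', hr'1, hr'⟩ := P.contract
  let r : ℝ := max r' (1 / 2)
  have hr0 : 0 < r := lt_of_lt_of_le (by norm_num) (le_max_right _ _)
  have hr1 : r < 1 := max_lt hr'1 (by norm_num)
  have hr : ∀ x ∈ IsLocalRing.maximalIdeal (E0 p n), ‖P.x x‖ ≤ r :=
    fun x hx => (hr' x hx).trans (le_max_left _ _)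
  have hμ : 0 < -Real.log r := neg_pos.mpr (Real.log_neg hr0 hr1)
  -- the scale of the motion of the point
  have hJr : ∀ s ∈ T.roots 1, s ≠ 0 → (T.chain s T.J0).v < T.rmin := fun s hs1 hs0 => by
    have h2 := Nat.find_spec (T.exists_lt_mul_pow T.rmin_pos)
    exact lt_of_mul_lt_mul_right (((T.v_chain_mul_le ⟨1, hs1⟩ hs0 T.J0).trans
      (T.le_rmax hs1 hs0)).trans_lt h2) (pow_nonneg T.p_pos.le _)
  let W0 : ℝ := T.nz.inf' T.nz_nonempty fun s =>
    (T.chain s T.J0).v * (p : ℝ) ^ (n * T.J0) / (p : ℝ) ^ n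
  have hW0 : 0 < W0 := (Finset.lt_inf'_iff _).mpr fun s hs1 => by
    obtain ⟨hs1, hs0⟩ := T.mem_nz.mp hs1
    exact div_pos (mul_pos (DiscLaw.Pt.v_pos (T.chain_ne_zero ⟨1, hs1⟩ hs0 _))
      (pow_pos T.p_pos _)) (pow_pos T.p_pos _)
  let Vs : ℝ := min (-Real.log r) W0
  have hVs : 0 < Vs := lt_min hμ hW0
  -- descend far enough
  obtain ⟨k, hk1, hk2⟩ : ∃ k : ℕ, T.rmin / (p : ℝ) ^ (n * k) < -Real.log r ∧
      T.Phi (T.rmin / (p : ℝ) ^ (n * k)) < (p : ℝ) ^ h * T.Phi Vs := by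
    have hpn : (1 : ℝ) < (p : ℝ) ^ n := one_lt_pow₀ T.one_lt_p (by omega)
    have e1 : ∀ᶠ k in atTop, T.rmin / (p : ℝ) ^ (n * k) < -Real.log r := by
      have h2 := (tendsto_pow_atTop_atTop_of_one_lt hpn).eventually_gt_atTop (T.rmin / -Real.log r)
      filter_upwards [h2] with k hk
      rw [pow_mul, div_lt_iff₀ (pow_pos (pow_pos T.p_pos _) _)]
      rw [div_lt_iff₀ hμ] at hk
      linarith
    have e2 : ∀ᶠ k in atTop, T.Phi (T.rmin / (p : ℝ) ^ (n * k)) < (p : ℝ) ^ h * T.Phi Vs := by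
      have h2 := (tendsto_pow_atTop_atTop_of_one_lt T.one_lt_ph).eventually_gt_atTop
        (T.Phi T.rmin / ((p : ℝ) ^ h * T.Phi Vs))
      filter_upwards [h2] with k hk
      have h3 := T.Phi_scale_iter k T.rmin_pos le_rfl
      rw [hnn] at h3
      rw [div_lt_iff₀ (mul_pos (pow_pos T.p_pos _) (T.Phi_pos hVs)), h3] at hk
      exact lt_of_mul_lt_mul_left hk (pow_nonneg (pow_nonneg T.p_pos.le _) _)
    exact (e1.and e2).exists
  let z : Fin (n - j + 1 + 1) → (P.law F).Pt := fun i => T.chain (z0 i) k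
  have hzt : ∀ i, T.IsTors (z i) := fun i => T.isTors_chain (hz0 i).1 k
  have hz0' : ∀ i, z i ≠ 0 := fun i => T.chain_ne_zero (hz0 i).1 (hz0 i).2.1 k
  have hzv : ∀ i, (z i).v = (z0 i).v / (p : ℝ) ^ (n * k) := fun i => by
    rw [(T.v_chain (hz0 i).1 (hz0 i).2.1 (hz0 i).2.2.2 k).1, hnn]
  have hzr : ∀ i, (z i).v < T.rmin := fun i =>
    (T.v_chain (hz0 i).1 (hz0 i).2.1 (hz0 i).2.2.2 k).2
  let ref : Fin (n - j + 1 + 1) → Fin (n - j + 1 + 1) := fun i => if i = b then a else i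
  have hrefv : ∀ i, (z (ref i)).v = (z i).v := fun i => by
    simp only [ref]
    split_ifs with hib
    · subst hib
      by_cases hab : a = i
      · rw [hab]
      · rw [hzv, hzv, (hpair hab).1]
    · rfl
  obtain ⟨δ0, hδ0, hstep⟩ := T.exists_step (DiscLaw.Pt.v_pos (hz0' a)) (hzr a)
  rw [hnn] at hδ0
  let δ : Fin 2 → ℕ := ![δ0, 0]
  have hδ : ∀ ε, δ ε ≤ n := fun ε => by fin_cases ε <;> simp [δ, hδ0]
  let V : Fin (n - j + 1 + 1) → Fin 2 → ℝ := fun i ε => (z i).v / (p : ℝ) ^ δ ε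
  have hVpos : ∀ i ε, 0 < V i ε := fun i ε =>
    div_pos (DiscLaw.Pt.v_pos (hz0' i)) (pow_pos T.p_pos _)
  have hVle : ∀ i ε, V i ε ≤ (z i).v := fun i ε =>
    div_le_self (DiscLaw.Pt.v_pos (hz0' i)).le (one_le_pow₀ T.one_lt_p.le)
  have hzle : ∀ i, (z i).v ≤ T.rmin / (p : ℝ) ^ (n * k) := fun i => by
    rw [hzv]; exact div_le_div_of_nonneg_right (hz0 i).2.2.2.le (pow_nonneg T.p_pos.le _)
  have hz3 : ∀ i, T.IsTors (z i) ∧ z i ≠ 0 ∧ (z i).v < T.rmin :=
    fun i => ⟨hzt i, hz0' i, hzr i⟩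
  have hz3' : ∀ i, T.IsTors (z (ref i)) ∧ z (ref i) ≠ 0 ∧ (z (ref i)).v = (z i).v :=
    fun i => ⟨hzt _, hz0' _, hrefv i⟩
  have hmove := fun ε => P.eventually_move T hF hP hinv hr0 hr z (fun i => z (ref i)) hz3 hz3'
    (hδ ε) (fun i => ((hVle i ε).trans (hzle i)).trans_lt hk1) hVs (min_le_left _ _)
    (J := T.J0) (fun s hs1 hs0 => ⟨hJr s hs1 hs0, (min_le_right _ _).trans
      ((Finset.inf'_le _ (T.mem_nz.mpr ⟨hs1, hs0⟩)).trans (div_le_div_of_nonneg_left
        (mul_nonneg (DiscLaw.Pt.v_pos (T.chain_ne_zero ⟨1, hs1⟩ hs0 _)).le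
          (pow_nonneg T.p_pos.le _)) (pow_pos T.p_pos _)
        (pow_le_pow_right₀ T.one_lt_p.le (hδ ε))))⟩)
    (fun i => (T.Phi_mono (hVpos i ε) ((hVle i ε).trans (hzle i))).trans_lt hk2)
  have hrefa : a ≠ b → ref a = a := fun hab => if_neg hab
  have hrefb : ref b = a := if_pos rfl
  choose Mi hMi using hzt
  choose Q hQm hQ using fun i => Point.exists_torsion_poly (F := F) hF hn (Mi i)
  have hδN : ∀ ε, ∀ᶠ N in atTop, δ ε ≤ n * N := fun ε => eventually_atTop.mpr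
    ⟨δ ε, fun N hN => hN.trans (Nat.le_mul_of_pos_left N (by omega))⟩
  refine ⟨{
    K := P.K
    ι := P.coefHom hP.x_p
    c := n - j + 1
    A := P.x.range
    A_norm := by rintro y ⟨x, rfl⟩; exact P.norm_le x
    pdeg := by simpa [Point.PDegLE, RingHom.coe_range] using hpdeg
    T := fun i => (z i).val
    T_norm := fun i => (z i).norm_lt.le
    T_integral := fun i => ⟨(Q i).map P.x.rangeRestrict, (hQm i).map _, ?_⟩
    w := fun i ε => T.Phi (V i ε)
    w_pos := fun i ε => T.Phi_pos (hVpos i ε)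
    γ := fun _ => (p : ℝ) ^ h * T.Phi Vs
    γ_pos := fun _ => mul_pos (pow_pos T.p_pos _) (T.Phi_pos hVs)
    lo := fun i ε => T.lo (V i ε)
    hi := fun i ε => T.hi (V i ε)
    lo_le_hi := fun i ε => by exact_mod_cast T.lo_le_hi (hVpos i ε)
    hi_lt := fun i ε => ?_
    a₀ := a
    b₀ := b
    disjoint := ?_
    scale := fun N => (p : ℝ) ^ (h * N)
    scale_tendsto := P.tendsto_scale T
    sh := fun _ N => ((h * N : ℕ) : ℤ)
    B := fun i ε N => P.rowB T (z i) (z (ref i)) (δ ε) N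
    ξ := fun i ε N κ => P.rowXi T hP.x_p (z i) (z (ref i)) (δ ε) N κ
    B_pos := fun i ε N => norm_pos_iff.mpr (T.normConst_ne_zero
      (P.rowRef_ne_zero (hz3' i).1 (hz3' i).2.1 _ _))
    B_asymp := ?_
    ξ_le := ?_
    ξ_ends := ?_
    move := ?_
    pair_B := fun hab ε N => ?_
    pair_w := fun hab ε => ?_
    pair_residue := ?_ }⟩
  · rw [Polynomial.eval₂_map]
    exact hQ i P (z i) ((T.mem_roots _ _).mp (hMi i))
  · have h2 := T.hi_sub_lo_le (hVpos i ε) ((hVle i ε).trans_lt (hzr i))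
    omega
  · intro i i' hii hab hba ε t t' heq κ κ' hκ hκ' hμ hμ'
    have hper : ∀ i i', V i' ε < (p : ℝ) ^ (h + (n - h)) * V i ε := by
      intro i i'
      simp only [V, hzv]
      rw [← mul_div_assoc, ← mul_div_assoc]
      refine div_lt_div_of_pos_right (div_lt_div_of_pos_right ?_ (pow_pos T.p_pos _))
        (pow_pos T.p_pos _)
      calc (z0 i').v < T.rmin := (hz0 i').2.2.2
        _ = (p : ℝ) ^ (h + (n - h)) * T.wbot := by
          rw [Tower.wbot, mul_div_cancel₀ _ (pow_ne_zero _ T.p_pos.ne')]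
        _ ≤ (p : ℝ) ^ (h + (n - h)) * (z0 i).v :=
          mul_le_mul_of_nonneg_left (hz0 i).2.2.1 (pow_nonneg T.p_pos.le _)
    have hne' : V i ε ≠ V i' ε := fun e => hne i i' hii hab hba (by
      simp only [V, hzv] at e
      exact (div_left_inj' (pow_ne_zero _ T.p_pos.ne')).mp
        ((div_left_inj' (pow_ne_zero _ T.p_pos.ne')).mp e))
    have h3 := T.disjoint_of_ne (hVpos i ε) (hVpos i' ε) ((hVle i ε).trans_lt (hzr i))
      ((hVle i' ε).trans_lt (hzr i')) hne' (hper i i') (hper i' i) heq hκ hκ' hμ hμ'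
    rwa [hnn] at h3
  · intro i ε
    refine ⟨|T.kappa|, ?_⟩
    filter_upwards [P.eventually_stable T (hVpos i ε), hδN ε] with N hN hδ'
    rw [P.log_rowB hP (hzr i) (hz0' i) (hz3' i).1 (hz3' i).2.1 (hrefv i) hδ' hN]
    exact le_of_eq (by congr 1; simp only [V]; ring)
  · intro i ε
    filter_upwards [hδN ε] with N hδ' κ _ _
    exact T.norm_rowCoeff_le N _ _ (P.norm_rowLam hP (hz3 i).1 (hz3 i).2.1 (hz3 i).2.2
      (hz3' i).1 (hz3' i).2.1 (hrefv i) hδ') κ
  · intro i ε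
    filter_upwards [P.eventually_stable T (hVpos i ε), hδN ε] with N hN hδ'
    exact T.norm_rowCoeff_ends (hVpos i ε) hN (P.rowRef_ne_zero (hz3' i).1 (hz3' i).2.1 _ _)
      (by rw [P.vv_rowRef hP (hz3' i).1 (hz3' i).2.1 (hrefv i ▸ hzr i) hδ', hrefv i])
      (P.norm_rowLam hP (hz3 i).1 (hz3 i).2.1 (hz3 i).2.2 (hz3' i).1 (hz3' i).2.1 (hrefv i) hδ')
  · intro ε
    exact ⟨(p : ℝ) ^ h * T.kappa, hmove ε⟩
  · simp only [hrefa hab, hrefb]
    unfold Point.rowB
    rw [show (z b).v = (z a).v by rw [← hrefv b, hrefb]]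
  · simp only [V]
    rw [show (z b).v = (z a).v by rw [← hrefv b, hrefb]]
  · intro hab
    have hv : (z b).v = (z a).v := by rw [← hrefv b, hrefb]
    have hmu := fun i => P.norm_pairMu_sub T hP (hz0 a).1 (hz0 a).2.1 (hz0 b).1 (hz0 b).2.1
      (hpair hab).1.symm (hz0 a).2.2.2 (hpair hab).2 (1 + k) i
    rw [T.chain_add, T.chain_add] at hmu
    refine ⟨(T.chain (z b) 1).val / (T.chain (z a) 1).val, (hmu 0).1, fun i => (hmu i).2,
      fun ε => T.hi (V a ε), fun ε => ⟨Or.inr rfl, ?_, ?_⟩, ?_⟩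
    · simp only [V, hv]; exact Int.ofNat_le.mpr (T.lo_le_hi (hVpos a ε))
    · simp only [V, hv]; exact le_rfl
    · filter_upwards [eventually_ge_atTop 1, P.eventually_stable T (hVpos a 0),
        P.eventually_stable T (hVpos a 1)] with N hN hs0 hs1
      refine ⟨n - δ 0 + h * N + (T.hi (V a 0) : ℤ).toNat, ?_, ?_⟩
      · simp only [hrefa hab, hrefb]
        exact P.norm_pair_coeff T hP (Exists.intro _ (hMi a)) (hz0' a) (Exists.intro _ (hMi b))
          (hz0' b) hv (hzr a) (hδ 0) hN hs0 _ rfl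
      · simp only [hrefa hab, hrefb]
        refine P.norm_pair_coeff T hP (Exists.intro _ (hMi a)) (hz0' a) (Exists.intro _ (hMi b))
          (hz0' b) hv (hzr a) (hδ 1) hN hs1 _ ?_
        have e0 : δ 0 = δ0 := rfl
        have e1 : δ 1 = 0 := rfl
        have e2 : T.hi (V a 0) + 1 = T.hi (V a 1) + δ0 := by
          simpa [V, e0, e1] using hstep
        rw [e0, e1, Int.toNat_natCast, Int.toNat_natCast]
        omega

end Vale.Agent.P217
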