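import Vale.Agent.P217.Core.EngineData
import Vale.Agent.P217.Core.Engine.Step

/-!
# P217 module G: the final contradiction
-/

noncomputable section

namespace Vale.Agent.P217

open Filter Engine

variable {p n : ℕ} [Fact p.Prime]

theorem engineData_false (hn : 1 ≤ n) (D : EngineData p n) : False := by
  have hp : (1 : ℝ) < p := by exact_mod_cast (Fact.out : p.Prime).one_lt
  -- a power of `p` beyond every ratio of weights
  have hgrow : ∀ x y : ℝ, 0 < y → ∀ᶠ R : ℕ in atTop, x < (p : ℝ) ^ R * y := fun x y hy =>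
    ((tendsto_pow_atTop_atTop_of_one_lt hp).atTop_mul_const hy).eventually_gt_atTop x
  obtain ⟨R, hR⟩ : ∃ R : ℕ, ∀ ε i, (∀ j, D.w i ε < (p : ℝ) ^ R * D.w j ε) ∧
      D.w i ε < (p : ℝ) ^ R * D.γ ε :=
    (eventually_all.2 fun ε => eventually_all.2 fun i =>
      (eventually_all.2 fun j => hgrow (D.w i ε) (D.w j ε) (D.w_pos j ε)).and
        (hgrow (D.w i ε) (D.γ ε) (D.γ_pos ε))).exists
  set M' := R * D.c + 1 with hM'
  obtain ⟨Q, t, g, hQ, ht, hne, hexp⟩ := exists_reduced (p := p) (M := M' + R) (M' := M')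
    (fun z hz => norm_ring_le D hz) D.T_norm
    (exists_rel D.T_integral D.pdeg (by rw [Fintype.card_fin, hM']; nlinarith))
  have hpos : (0 : ℝ) < p := zero_lt_one.trans hp
  have hwt : ∀ i ε, g i ≠ 0 →
      (∀ j, (p : ℝ) ^ t i * D.w i ε < (p : ℝ) ^ (M' + R) * D.w j ε) ∧
      (p : ℝ) ^ t i * D.w i ε < (p : ℝ) ^ (M' + R) * D.γ ε := fun i ε hi => by
    have hle : (p : ℝ) ^ t i ≤ (p : ℝ) ^ M' := pow_le_pow_right₀ hp.le (ht i hi).le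
    have key : ∀ y : ℝ, D.w i ε < (p : ℝ) ^ R * y →
        (p : ℝ) ^ t i * D.w i ε < (p : ℝ) ^ (M' + R) * y := fun y hy =>
      calc (p : ℝ) ^ t i * D.w i ε ≤ (p : ℝ) ^ M' * D.w i ε :=
            mul_le_mul_of_nonneg_right hle (D.w_pos i ε).le
        _ < (p : ℝ) ^ M' * ((p : ℝ) ^ R * y) := mul_lt_mul_of_pos_left hy (pow_pos hpos _)
        _ = _ := by ring
    exact ⟨fun j => key _ ((hR ε i).1 j), key _ (hR ε i).2⟩
  have h0 := eventually_pair D hn hQ hexp hne 0 fun i hi => hwt i 0 hi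
  have h1 := eventually_pair D hn hQ hexp hne 1 fun i hi => hwt i 1 hi
  obtain ⟨m₀, hm₀⟩ := h0.exists
  obtain ⟨hab, htab, hgn, -⟩ := hm₀
  obtain ⟨μ, hμ1, hμ, κ, hκ, hq⟩ := D.pair_residue hab
  obtain ⟨m, ⟨-, -, -, hm0⟩, ⟨-, -, -, hm1⟩, ⟨q, hq0, hq1⟩, he0, he1⟩ :=
    (h0.and (h1.and (hq.and ((D.ξ_ends D.a₀ 0).and (D.ξ_ends D.a₀ 1))))).exists
  have hga : g D.a₀ ≠ 0 := by
    intro h
    have := hm0 (κ 0) (hκ 0).1 (hκ 0).2.1 (hκ 0).2.2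
    simp only [h, norm_zero, zero_mul] at this
    exact absurd this (norm_nonneg _).not_gt
  set a := g D.a₀
  set b := g D.b₀
  set P := p ^ t D.a₀ with hP
  have hP0 : P ≠ 0 := pow_ne_zero _ (Fact.out : p.Prime).ne_zero
  -- the residue of the ratio at one exponent
  have key : ∀ ε (ν : D.K),
      ‖D.ξ D.a₀ ε m (κ ε)‖ = D.B D.a₀ ε m →
      ‖D.ξ D.b₀ ε m (κ ε) - ν * D.ξ D.a₀ ε m (κ ε)‖ < D.B D.a₀ ε m →
      ‖a * D.ξ D.a₀ ε m (κ ε) ^ P + b * D.ξ D.b₀ ε m (κ ε) ^ P‖ < ‖a‖ * D.B D.a₀ ε m ^ P →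
      ‖a + b * ν ^ P‖ < ‖a‖ := by
    intro ε ν hxa herr hsum
    set x := D.ξ D.a₀ ε m (κ ε)
    set y := D.ξ D.b₀ ε m (κ ε)
    have he : ‖b * (y - ν * x) ^ P‖ < ‖a‖ * D.B D.a₀ ε m ^ P := by
      rw [norm_mul, norm_pow, hgn]
      exact mul_lt_mul_of_pos_left (pow_lt_pow_left₀ herr (norm_nonneg _) hP0)
        (norm_pos_iff.2 hga)
    have h := norm_add_lt' hsum (show ‖-(b * (y - ν * x) ^ P)‖ < _ by rwa [norm_neg])
    rw [show a * x ^ P + b * y ^ P + -(b * (y - ν * x) ^ P) = (a + b * ν ^ P) * x ^ P by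
      rw [hP, sub_pow_char_pow]; ring, norm_mul, norm_pow, hxa] at h
    exact lt_of_mul_lt_mul_right h (pow_nonneg (D.B_pos _ _ _).le _)
  have hend : ∀ ε, (‖D.ξ D.a₀ ε m (D.lo D.a₀ ε)‖ = D.B D.a₀ ε m ∧
      ‖D.ξ D.a₀ ε m (D.hi D.a₀ ε)‖ = D.B D.a₀ ε m) → ‖D.ξ D.a₀ ε m (κ ε)‖ = D.B D.a₀ ε m :=
    fun ε h => by rcases (hκ ε).1 with e | e <;> rw [e]; exacts [h.1, h.2]
  have k0 := key 0 _ (hend 0 he0) hq0 (hm0 _ (hκ 0).1 (hκ 0).2.1 (hκ 0).2.2)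
  have k1 := key 1 _ (hend 1 he1) hq1 (hm1 _ (hκ 1).1 (hκ 1).2.1 (hκ 1).2.2)
  have hd : ‖b * (μ ^ p - μ) ^ (p ^ q * P)‖ < ‖a‖ := by
    have h := norm_add_lt' k1 (show ‖-(a + b * (μ ^ p ^ q) ^ P)‖ < ‖a‖ by rwa [norm_neg])
    refine lt_of_eq_of_lt (congrArg norm ?_) h
    rw [hP, ← pow_add, sub_pow_char_pow, pow_add]
    simp only [← pow_mul, pow_succ']
    ring
  rw [norm_mul, norm_pow, norm_pow_sub_self hμ, one_pow, mul_one, hgn] at hd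
  exact lt_irrefl _ hd

end Vale.Agent.P217
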