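import Vale.Agent.P217.LT.Universal
import Vale.Agent.P217.LT.Heights

/-!
# P217 module D: descending induction and radical ideals, given the two cores

A near-invariant prime `P` over `I_h` not containing the next parameter has a near-invariant
radical `rad (P + (u h))`, whose minimal primes are near-invariant and contain `I_{h+1}`; by
descending induction they are height ideals, hence nested, so the radical is a single `I_j`.
-/

noncomputable section

namespace Vale.Agent.P217

variable {p n : ℕ} [Fact p.Prime] {F : FormalGroup (E0 p n)}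

namespace Reduction

open IsLocalRing

/-- The generator of `I_{h+1}` over `I_h`: `p` for `h = 0` and `u h` for `h ≥ 1`. -/
def gen (p n : ℕ) [Fact p.Prime] (h : ℕ) : E0 p n :=
  if h = 0 then (p : E0 p n) else u p n h

lemma gen_zero : gen p n 0 = (p : E0 p n) := if_pos rfl

lemma gen_pos {h : ℕ} (hh : 1 ≤ h) : gen p n h = u p n h := if_neg (by omega)

lemma heightIdeal_succ (h : ℕ) :
    heightIdeal p n (h + 1) = heightIdeal p n h ⊔ Ideal.span {gen p n h} := by
  rcases Nat.eq_zero_or_pos h with rfl | hh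
  · simp [heightIdeal, gen_zero]
  · rw [heightIdeal, if_neg (by omega), heightIdeal, if_neg (by omega), gen_pos hh,
      ← Ideal.span_union, Set.insert_union, ← Set.image_singleton, ← Set.image_union,
      show Set.Ico 1 h ∪ {h} = Set.Ico 1 (h + 1) by
        ext i; simp only [Set.mem_union, Set.mem_Ico, Set.mem_singleton_iff]; omega]

lemma gen_mem_succ (h : ℕ) : gen p n h ∈ heightIdeal p n (h + 1) := by
  rw [heightIdeal_succ]
  exact Ideal.mem_sup_right (Ideal.mem_span_singleton_self _)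

lemma le_maximalIdeal_of_le (hn : 1 ≤ n) {h : ℕ} (hh : h ≤ n) :
    heightIdeal p n h ≤ maximalIdeal (E0 p n) :=
  (heightIdeal_mono hh).trans (heightIdeal_eq_maximalIdeal hn).le

lemma gen_mem_maximalIdeal (hn : 1 ≤ n) {h : ℕ} (hh : h < n) :
    gen p n h ∈ maximalIdeal (E0 p n) :=
  le_maximalIdeal_of_le hn (show h + 1 ≤ n by omega) (gen_mem_succ h)

lemma isNearInvariant_radical {J : Ideal (E0 p n)} (hJ : IsNearInvariant p n F J) :
    IsNearInvariant p n F J.radical := by
  obtain ⟨M, hM⟩ := hJ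
  refine ⟨M, fun g σ hg hd hσ x ⟨k, hk⟩ => ⟨k, ?_⟩⟩
  rw [← map_pow]
  exact hM g σ hg hd hσ _ hk

lemma isNearInvariant_sup_gen (hF : IsHazewinkel p n F) [F.IsComm] {P : Ideal (E0 p n)}
    (hP : IsNearInvariant p n F P) {h : ℕ} (hh : h < n) (hle : heightIdeal p n h ≤ P) :
    IsNearInvariant p n F (P ⊔ Ideal.span {gen p n h}) := by
  obtain ⟨M, hM⟩ := hP
  refine ⟨M, fun g σ hg hd hσ x hx => ?_⟩
  obtain ⟨a, ha, b, hb, rfl⟩ := Submodule.mem_sup.1 hx
  obtain ⟨c, rfl⟩ := Ideal.mem_span_singleton'.1 hb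
  rw [map_add, map_mul]
  refine add_mem (Ideal.mem_sup_left (hM g σ hg hd hσ a ha)) (Ideal.mul_mem_left _ _ ?_)
  have h1 := (heightIdeal_isInvariant hF (show h + 1 ≤ n by omega)).1 g σ hg hσ _ (gen_mem_succ h)
  rw [heightIdeal_succ] at h1
  exact (sup_le_sup_right hle (Ideal.span {gen p n h})) h1

/-- The minimal primes of a near-invariant radical ideal are near-invariant. -/
lemma isNearInvariant_of_mem_minimalPrimes (hF : IsHazewinkel p n F) [F.IsComm] (hn : 1 ≤ n)
    {J Q : Ideal (E0 p n)} (hJ : J.IsRadical) (hJinv : IsNearInvariant p n F J)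
    (hQ : Q ∈ J.minimalPrimes) : IsNearInvariant p n F Q := by
  classical
  have hQp : Q.IsPrime := hQ.1.1
  set s : Finset (Ideal (E0 p n)) :=
    (Ideal.finite_minimalPrimes_of_isNoetherianRing (E0 p n) J).toFinset.erase Q with hs
  have hnle : ¬ s.inf id ≤ Q := by
    intro h
    obtain ⟨Q', hQ', hle⟩ := (Ideal.IsPrime.inf_le' hQp).1 h
    obtain ⟨hne, hmem⟩ := Finset.mem_erase.1 (hs ▸ hQ')
    rw [Set.Finite.mem_toFinset] at hmem
    exact hne (le_antisymm hle (hQ.2 hmem.1 hle))
  obtain ⟨z, hzs, hzQ⟩ := SetLike.not_le_iff_exists.1 hnle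
  rw [Submodule.mem_finsetInf] at hzs
  obtain ⟨N, hN⟩ : ∃ N : ℕ, z ∉ Q ⊔ maximalIdeal (E0 p n) ^ N := by
    by_contra hall
    push Not at hall
    have hkrull := Ideal.iInf_pow_smul_eq_bot_of_isLocalRing (M := E0 p n ⧸ Q)
      (maximalIdeal (E0 p n)) (maximalIdeal.isMaximal (E0 p n)).ne_top
    have hmem : Ideal.Quotient.mk Q z ∈
        (⨅ i : ℕ, maximalIdeal (E0 p n) ^ i • ⊤ : Submodule (E0 p n) (E0 p n ⧸ Q)) := by
      refine Submodule.mem_iInf _ |>.2 fun i => ?_
      obtain ⟨a, ha, b, hb, hab⟩ := Submodule.mem_sup.1 (hall i)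
      rw [← hab, map_add, Ideal.Quotient.eq_zero_iff_mem.2 ha, zero_add,
        show Ideal.Quotient.mk Q b = b • (1 : E0 p n ⧸ Q) from
          (Algebra.algebraMap_eq_smul_one b)]
      exact Submodule.smul_mem_smul hb Submodule.mem_top
    rw [hkrull, Submodule.mem_bot, Ideal.Quotient.eq_zero_iff_mem] at hmem
    exact hzQ hmem
  obtain ⟨M₁, hM₁⟩ := rigidity hF hn N
  obtain ⟨M₂, hM₂⟩ := hJinv
  refine ⟨max M₁ M₂, fun g σ hg hd hσ x hx => ?_⟩
  have hdvd : ∀ M, M ≤ max M₁ M₂ → PowerSeries.X ^ p ^ M ∣ g - PowerSeries.X := fun M hM =>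
    (pow_dvd_pow _ (Nat.pow_le_pow_right (Fact.out : p.Prime).pos hM)).trans hd
  have hσz : σ z ∉ Q := fun h => hN <| by
    have h1 := sub_mem (Ideal.mem_sup_left (T := maximalIdeal (E0 p n) ^ N) h)
      (Ideal.mem_sup_right (S := Q) (hM₁ g σ hg (hdvd M₁ (le_max_left _ _)) hσ z))
    rwa [sub_sub_cancel] at h1
  have hxz : x * z ∈ J := by
    rw [← hJ.radical, ← Ideal.sInf_minimalPrimes, Submodule.mem_sInf]
    intro Q' hQ'
    by_cases hQQ : Q' = Q
    · exact hQQ ▸ Ideal.mul_mem_right _ _ hx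
    · exact Ideal.mul_mem_left _ _
        (hzs Q' (Finset.mem_erase.2 ⟨hQQ, (Set.Finite.mem_toFinset _).2 hQ'⟩))
  have h2 := hQ.1.2 (hM₂ g σ hg (hdvd M₂ (le_max_right _ _)) hσ _ hxz)
  rw [map_mul] at h2
  exact (hQp.mem_or_mem h2).resolve_right hσz

/-- A proper radical ideal all of whose minimal primes are height ideals is a height ideal. -/
lemma eq_heightIdeal_of_minimalPrimes {J : Ideal (E0 p n)} (hJ : J.IsRadical) (hne : J ≠ ⊤)
    (hQ : ∀ Q ∈ J.minimalPrimes, ∃ t ≤ n, Q = heightIdeal p n t) :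
    ∃ t ≤ n, J = heightIdeal p n t := by
  classical
  obtain ⟨Q₀, hQ₀⟩ := Ideal.nonempty_minimalPrimes hne
  obtain ⟨t₀, ht₀, rfl⟩ := hQ Q₀ hQ₀
  have hex : ∃ t, t ≤ n ∧ heightIdeal p n t ∈ J.minimalPrimes := ⟨t₀, ht₀, hQ₀⟩
  obtain ⟨hle, hmem⟩ := Nat.find_spec hex
  refine ⟨Nat.find hex, hle, ?_⟩
  have hall : J.minimalPrimes = {heightIdeal p n (Nat.find hex)} := by
    refine Set.eq_singleton_iff_unique_mem.2 ⟨hmem, fun Q hQm => ?_⟩
    obtain ⟨t, ht, rfl⟩ := hQ Q hQm
    have h1 := heightIdeal_mono (p := p) (n := n) (Nat.find_min' hex ⟨ht, hQm⟩)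
    exact le_antisymm (hQm.2 hmem.1 h1) h1
  calc J = sInf J.minimalPrimes := by rw [Ideal.sInf_minimalPrimes, hJ.radical]
    _ = heightIdeal p n (Nat.find hex) := (congrArg sInf hall).trans sInf_singleton

/-- The inductive statement of the descending induction. -/
lemma classification_above (hF : IsHazewinkel p n F) [F.IsComm] (hn : 1 ≤ n)
    (hp : CharPCore p n F) (h0 : CharZeroCore p n F) :
    ∀ k h : ℕ, h + k = n → ∀ P : Ideal (E0 p n), P.IsPrime → IsNearInvariant p n F P →
      heightIdeal p n h ≤ P → ∃ t ≤ n, P = heightIdeal p n t := by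
  intro k
  induction k with
  | zero =>
    intro h hh P hP _ hle
    obtain rfl : h = n := by omega
    refine ⟨h, le_rfl, ((maximalIdeal.isMaximal (E0 p h)).eq_of_le hP.ne_top ?_).symm.trans
      (heightIdeal_eq_maximalIdeal hn).symm⟩
    exact (heightIdeal_eq_maximalIdeal hn).ge.trans hle
  | succ k ih =>
    intro h hh P hP hinv hle
    have hhn : h < n := by omega
    by_cases hmem : gen p n h ∈ P
    · exact ih (h + 1) (by omega) P hP hinv (by
        rw [heightIdeal_succ]
        exact sup_le hle ((Ideal.span_singleton_le_iff_mem _).2 hmem))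
    set J := (P ⊔ Ideal.span {gen p n h}).radical with hJ
    have hJrad : J.IsRadical := Ideal.radical_isRadical _
    have hgen : gen p n h ∈ J :=
      Ideal.le_radical (Ideal.mem_sup_right (Ideal.mem_span_singleton_self _))
    have hsucc : heightIdeal p n (h + 1) ≤ J := by
      rw [heightIdeal_succ, hJ]
      exact (sup_le_sup_right hle _).trans Ideal.le_radical
    have hne : J ≠ ⊤ := fun htop => by
      have h1 : P ⊔ Ideal.span {gen p n h} ≤ maximalIdeal (E0 p n) :=
        sup_le (le_maximalIdeal hP.ne_top)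
          ((Ideal.span_singleton_le_iff_mem _).2 (gen_mem_maximalIdeal hn hhn))
      exact (maximalIdeal.isMaximal (E0 p n)).ne_top
        (top_le_iff.1 ((Ideal.radical_eq_top.1 htop).ge.trans h1))
    have hJinv : IsNearInvariant p n F J :=
      isNearInvariant_radical (isNearInvariant_sup_gen hF hinv hhn hle)
    obtain ⟨j, hjn, hj⟩ := eq_heightIdeal_of_minimalPrimes hJrad hne fun Q hQ =>
      ih (h + 1) (by omega) Q hQ.1.1 (isNearInvariant_of_mem_minimalPrimes hF hn hJrad hJinv hQ)
        (hsucc.trans hQ.1.2)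
    have hhj : h < j := by
      by_contra hcon
      exact hmem (hle (heightIdeal_mono (show j ≤ h by omega) (hj ▸ hgen)))
    rcases Nat.eq_zero_or_pos h with rfl | hpos
    · rw [gen_zero] at hmem hJ
      refine ⟨0, Nat.zero_le n, ?_⟩
      rw [h0 P j hP hinv (by omega) hjn hmem (hJ.symm.trans hj)]
      simp [heightIdeal]
    rw [gen_pos hpos] at hmem hJ hgen
    rcases (show j = h + 1 ∨ h + 2 ≤ j by omega) with rfl | hj2
    · refine ⟨h, hhn.le, le_antisymm ?_ hle⟩
      have hPJ : P ≤ heightIdeal p n h ⊔ Ideal.span {u p n h} := by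
        rw [← gen_pos (p := p) (n := n) hpos, ← heightIdeal_succ, ← hj, hJ]
        exact le_sup_left.trans Ideal.le_radical
      refine Submodule.le_of_le_smul_of_le_jacobson_bot (I := Ideal.span {u p n h})
        (IsNoetherian.noetherian P) ?_ fun x hx => ?_
      · rw [jacobson_eq_maximalIdeal _ bot_ne_top, Ideal.span_singleton_le_iff_mem,
          ← gen_pos (p := p) (n := n) hpos]
        exact gen_mem_maximalIdeal hn hhn
      · obtain ⟨a, ha, b, hb, hab⟩ := Submodule.mem_sup.1 (hPJ hx)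
        obtain ⟨c, rfl⟩ := Ideal.mem_span_singleton.1 hb
        have hc : c ∈ P := (hP.mem_or_mem (x := u p n h) (y := c) (by
          rw [eq_sub_of_add_eq' hab]
          exact sub_mem hx (hle ha))).resolve_left hmem
        rw [← hab]
        exact Submodule.add_mem_sup ha
          (Submodule.smul_mem_smul (Ideal.mem_span_singleton_self _) hc)
    · exact (hp P h j hP hinv hpos hj2 hjn hle hmem (hJ.symm.trans hj)).elim

end Reduction

theorem prime_classification (hF : IsHazewinkel p n F) [F.IsComm] (hn : 1 ≤ n)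
    (hp : CharPCore p n F) (h0 : CharZeroCore p n F) {P : Ideal (E0 p n)} (hP : P.IsPrime)
    (hinv : IsNearInvariant p n F P) : ∃ h ≤ n, P = heightIdeal p n h :=
  Reduction.classification_above hF hn hp h0 n 0 (zero_add n) P hP hinv
    (by simp [heightIdeal])

theorem radical_classification (hF : IsHazewinkel p n F) [F.IsComm] (hn : 1 ≤ n)
    (hp : CharPCore p n F) (h0 : CharZeroCore p n F) {J : Ideal (E0 p n)} (hJ : J.IsRadical)
    (hinv : IsNearInvariant p n F J) :
    (∃ h ≤ n, J = heightIdeal p n h) ∨ J = ⊤ := by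
  by_cases hne : J = ⊤
  · exact .inr hne
  · exact .inl (Reduction.eq_heightIdeal_of_minimalPrimes hJ hne fun Q hQ =>
      prime_classification hF hn hp h0 hQ.1.1
        (Reduction.isNearInvariant_of_mem_minimalPrimes hF hn hJ hinv hQ))

end Vale.Agent.P217
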